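import Vale.Agent.P032.S5.H225.Germ
import Vale.Agent.P032.S5.H824.Two

/-!
# P032: the apex table

Frame `Irr U T`.  `p` a common neighbour of `z` and `y` (any distance in `(0, 2)`), not collinear
with them.  `Lt T z p o` : arcs of `S(z)` with constant palette `o` accumulate at `p` (the letter
`o` of `S(z)` at `p`).

* `Irr.apex` : for every colour `t` of `T y` some letter of `S(z)` at `p` does not contain `t`
  (`Irr.apex'` : the same with `Pal y`); `Irr.lt_two` : a letter inside `T z` has at least two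
  colours; `Irr.lt_pair` : at a two-pair point it is one of the two pairs;
* `Irr.apex_two` : a common neighbour with two colours is disjoint from `Pal z` or from `Pal y`.

Six colours `a .. f` (`Nodup`), two-pair points `z`, `y` (`DPt`), `|T p| <= 3` (no condition on the
unit circles): the table

* `apex_alpha` : `ab|cd`, `ae|bf` : `c, d ∈ T p`
* `apex_nn` : `ab|cd`, `ab|ef` : `c, d ∈ T p` or `e, f ∈ T p`
* `apex_split` : `ab|cd`, `ae|cf` : `a, b, e ∈ T p` or `c, d, f ∈ T p`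
* `apex_delta` : `ab|cd`, `ac|be` : `f ∈ T p`
* `apex_same` : `ab|cd`, `ab|ce` : `f ∈ T p` or `c, d, e ∈ T p`
* `apex_beta`, `apex_eq` : `T y = T z` : `e ∈ T p` or `f ∈ T p`
-/

open Set Filter Topology Metric

noncomputable section

namespace Vale.Agent.P032.Six

section general
variable {k : ℕ} {U : Fin k → Set ℂ} {T : ℂ → Set (Fin k)}

/-- arcs of `S(z)` with constant palette `o` accumulate at `p` -/
def Lt (T : ℂ → Set (Fin k)) (z p : ℂ) (o : Set (Fin k)) : Prop :=
  ∃ᶠ q in 𝓝[sphere z 1] p, Arc T z q o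

theorem Irr.lt_sub (h : Irr U T) {z p : ℂ} {o : Set (Fin k)} (ho : Lt T z p o) : o ⊆ T p := by
  obtain ⟨q, hq, hs⟩ := (ho.and_eventually (mem_nhdsWithin_of_mem_nhds (h.nhd p))).exists
  rw [← hq.2.self_of_nhdsWithin hq.1]
  exact hs

/-- a letter is realised at points of the circle arbitrarily near `p` -/
theorem Lt.freq {z p : ℂ} {o : Set (Fin k)} (ho : Lt T z p o) :
    ∃ᶠ q in 𝓝[sphere z 1] p, T q = o :=
  ho.mono fun _ hq => hq.2.self_of_nhdsWithin hq.1

/-- if the colour `t` is not everywhere on `S(z)` near `p`, some letter at `p` is without `t` -/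
theorem Irr.exists_lt (h : Irr U T) {z p : ℂ} {t : Fin k}
    (ht : ∃ᶠ q in 𝓝[sphere z 1] p, t ∉ T q) : ∃ o, Lt T z p o ∧ t ∉ o := by
  by_contra hcon
  push Not at hcon
  have h1 : ∀ o : Set (Fin k), t ∉ o → ∀ᶠ q in 𝓝[sphere z 1] p, ¬ Arc T z q o := by
    intro o ho
    by_contra h2
    exact ho (hcon o h2)
  have h2 : ∀ᶠ q in 𝓝[sphere z 1] p, ∀ o : Set (Fin k), t ∉ o → ¬ Arc T z q o := by
    refine eventually_all.2 fun o => ?_
    by_cases ho : t ∉ o
    · exact (h1 o ho).mono fun q hq _ => hq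
    · exact Eventually.of_forall fun q hq => absurd hq ho
  obtain ⟨V, hV, hVs⟩ := mem_nhdsWithin_iff_exists_mem_nhds_inter.1 h2
  obtain ⟨W, hWV, hWo, hpW⟩ := _root_.mem_nhds_iff.1 hV
  have h3 : ∀ᶠ q in 𝓝[sphere z 1] p, q ∈ W ∧ dist q z = 1 := by
    filter_upwards [mem_nhdsWithin_of_mem_nhds (hWo.mem_nhds hpW), self_mem_nhdsWithin]
      with q h1 h2 using ⟨h1, h2⟩
  obtain ⟨q, hq, hqW, hqz⟩ := (ht.and_eventually h3).exists
  obtain ⟨q', ⟨⟨hq'W, hq's⟩, hq'z⟩, hq'⟩ := h.const (S := sphere z 1) (y := q) hqz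
    (inter_mem (hWo.mem_nhds hqW) (h.nhd q))
  exact hVs ⟨hWV hq'W, hq'z⟩ (T q') (fun hc => hq (hq's hc)) ⟨hq'z, hq'⟩

/-- there is a letter -/
theorem Irr.exists_lt' (h : Irr U T) {z p : ℂ} (hp : dist p z = 1) : ∃ o, Lt T z p o := by
  by_contra hcon
  push Not at hcon
  have h1 : ∀ o : Set (Fin k), ∀ᶠ q in 𝓝[sphere z 1] p, ¬ Arc T z q o := by
    intro o
    by_contra h2
    exact hcon o h2
  obtain ⟨V, hV, hVs⟩ := mem_nhdsWithin_iff_exists_mem_nhds_inter.1 (eventually_all.2 h1)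
  obtain ⟨q', ⟨hq'V, hq'z⟩, hq'⟩ := h.const (S := sphere z 1) (y := p) hp hV
  exact hVs ⟨hq'V, hq'z⟩ (T q') ⟨hq'z, hq'⟩

/-- a letter inside `T z` is an exact pair at least: two colours, and two colours of `T z` are
outside -/
theorem Irr.lt_two (h : Irr U T) {z p : ℂ} {o : Set (Fin k)} (ho : Lt T z p o) (hs : o ⊆ T z) :
    2 ≤ o.ncard ∧ 2 ≤ (T z \ o).ncard := by
  obtain ⟨q, hq⟩ := ho.exists
  have hqo : T q = o := hq.2.self_of_nhdsWithin hq.1
  have hV : ∀ᶠ q' in 𝓝 q, q' ∈ sphere z 1 → T q' = o := by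
    have := mem_nhdsWithin_iff_exists_mem_nhds_inter.1 hq.2
    obtain ⟨V, hV, hVs⟩ := this
    filter_upwards [hV] with q' h1 h2 using hVs ⟨h1, h2⟩
  obtain ⟨q1, hq1V, hq1z, -, -, h2, h3⟩ := h.arc_of_sub (x := z) (y := q) hq.1
    (by rw [hqo]; exact hs) hV
  rw [hq1V hq1z] at h2 h3
  exact ⟨h2, h3⟩

/-- a single letter is not a colour of `T z` -/
theorem Irr.lt_single (h : Irr U T) {z p : ℂ} {i : Fin k} (ho : Lt T z p {i}) : i ∉ T z := by
  intro hi
  have := (h.lt_two ho (by simpa using hi)).1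
  rw [Set.ncard_singleton] at this
  omega

/-- **Apex, general form**: `p` a common neighbour of `z` and `y`, not on their line: for every
colour `t` of `T y` some letter of `S(z)` at `p` is without `t` -/
theorem Irr.apex (h : Irr U T) {z y p : ℂ} (hpz : dist p z = 1) (hpy : dist p y = 1)
    (hne : y ≠ z) (hne2 : y + z ≠ 2 * p) {t : Fin k} (ht : t ∈ T y) :
    ∃ o, Lt T z p o ∧ t ∉ o := by
  refine h.exists_lt ?_
  intro hcon
  have hJ : ∀ᶠ q in 𝓝[sphere z 1] p, t ∈ T q := hcon.mono fun q hq => by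
    by_contra h1
    exact hq h1
  rcases h.mx.partner_line hpz (hJ.mono fun q hq => h.sub q hq) hpy (h.sub y ht) with h1 | h1
  · exact hne h1
  · exact hne2 h1

/-- the same with the full palette `Pal y` -/
theorem Irr.apex' (h : Irr U T) {z y p : ℂ} (hpz : dist p z = 1) (hpy : dist p y = 1)
    (hne : y ≠ z) (hne2 : y + z ≠ 2 * p) {t : Fin k} (ht : t ∈ Pal U y) :
    ∃ o, Lt T z p o ∧ t ∉ o := by
  refine h.exists_lt ?_
  intro hcon
  have hJ : ∀ᶠ q in 𝓝[sphere z 1] p, t ∈ T q := hcon.mono fun q hq => by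
    by_contra h1
    exact hq h1
  rcases h.mx.partner_line hpz (hJ.mono fun q hq => h.sub q hq) hpy ht with h1 | h1
  · exact hne h1
  · exact hne2 h1

/-- at most two colours at a common neighbour: disjoint from one of the two palettes -/
theorem Irr.apex_two (h : Irr U T) {z y p : ℂ} (hpz : dist p z = 1) (hpy : dist p y = 1)
    (hne : y ≠ z) (hne2 : y + z ≠ 2 * p) (h2 : (T p).ncard ≤ 2) :
    Disjoint (T p) (Pal U z) ∨ Disjoint (T p) (Pal U y) := by
  by_contra hcon
  push Not at hcon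
  obtain ⟨hz, hy⟩ := hcon
  obtain ⟨i, hip, hiz⟩ := Set.not_disjoint_iff.1 hz
  obtain ⟨j, hjp, hjy⟩ := Set.not_disjoint_iff.1 hy
  rcases eq_or_ne i j with hij | hij
  · -- the same colour; take a second one
    subst hij
    have hX : p ∈ XX U := h.mem_XX hpz hip hiz
    obtain ⟨l, hl, hli⟩ := h.two hX i
    have hT : T p ⊆ {i, l} := by
      intro m hm
      by_contra hcon
      simp only [mem_insert_iff, mem_singleton_iff, not_or] at hcon
      have h3 : ({i, l, m} : Set (Fin k)) ⊆ T p := by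
        rintro n (rfl | rfl | rfl) <;> assumption
      have h4 := Set.ncard_le_ncard h3 (Set.toFinite _)
      rw [Set.ncard_insert_of_notMem (by simp [hli.symm, Ne.symm hcon.1]),
        Set.ncard_pair (Ne.symm hcon.2)] at h4
      omega
    obtain ⟨v, hv, hlv⟩ := h.partner_XX hX l
    -- `v` is on the line of `z` and on the line of `y`
    have e1 := h.lemmaB hT hpz hv hiz hlv
    have e2 := h.lemmaB hT hpy hv hjy hlv
    rcases e1 with e1 | e1 <;> rcases e2 with e2 | e2
    · exact hne (e2.symm.trans e1)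
    · exact hne2 (by rw [← e2, e1]; ring)
    · exact hne2 (by rw [← e1, e2])
    · apply hne
      have : v + y = v + z := by rw [e1, e2]
      exact add_left_cancel this
  · have hT : T p ⊆ {i, j} := by
      intro m hm
      by_contra hcon
      simp only [mem_insert_iff, mem_singleton_iff, not_or] at hcon
      have h3 : ({i, j, m} : Set (Fin k)) ⊆ T p := by
        rintro n (rfl | rfl | rfl) <;> assumption
      have h4 := Set.ncard_le_ncard h3 (Set.toFinite _)
      rw [Set.ncard_insert_of_notMem (by simp [hij, Ne.symm hcon.1]),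
        Set.ncard_pair (Ne.symm hcon.2)] at h4
      omega
    rcases h.lemmaB hT hpz hpy hiz hjy with h1 | h1
    · exact hne h1
    · exact hne2 h1

end general

variable {U : Fin 6 → Set ℂ} {T : ℂ → Set (Fin 6)}

/-- the letters of `S(z)` inside `T z` are the two pairs -/
theorem Irr.lt_pair (h : Irr U T) {z p : ℂ} {a b c d : Fin 6} (hz : DPt T z a b c d)
    {o : Set (Fin 6)} (ho : Lt T z p o) (hs : o ⊆ T z) : o = {a, b} ∨ o = {c, d} := by
  obtain ⟨q, hq⟩ := ho.exists
  have hqo : T q = o := hq.2.self_of_nhdsWithin hq.1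
  have := h.twoPairs hz q hq.1 (by rw [hqo]; exact hq.2) (by rw [hqo]; exact hs)
  rwa [hqo] at this

/-- **Apex for a two-pair point `z`**: the three cases -/
theorem Irr.apex_cases (h : Irr U T) {z y p : ℂ} {a b c d : Fin 6} (hz : DPt T z a b c d)
    (hpz : dist p z = 1) (hpy : dist p y = 1) (hne : y ≠ z) (hne2 : y + z ≠ 2 * p) {t : Fin 6}
    (ht : t ∈ T y) : (∃ i ∈ T p, i ∉ T z ∧ i ≠ t) ∨ (a ∈ T p ∧ b ∈ T p ∧ t ≠ a ∧ t ≠ b) ∨
      (c ∈ T p ∧ d ∈ T p ∧ t ≠ c ∧ t ≠ d) := by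
  obtain ⟨o, ho, hto⟩ := h.apex hpz hpy hne hne2 ht
  have hop := h.lt_sub ho
  by_cases hs : o ⊆ T z
  · rcases h.lt_pair hz ho hs with rfl | rfl
    · refine Or.inr (Or.inl ⟨hop (by simp), hop (by simp), ?_, ?_⟩)
      · rintro rfl; exact hto (by simp)
      · rintro rfl; exact hto (by simp)
    · refine Or.inr (Or.inr ⟨hop (by simp), hop (by simp), ?_, ?_⟩)
      · rintro rfl; exact hto (by simp)
      · rintro rfl; exact hto (by simp)
  · obtain ⟨i, hio, hiz⟩ := Set.not_subset.1 hs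
    exact Or.inl ⟨i, hop hio, hiz, fun hit => hto (hit ▸ hio)⟩

open Classical in
/-- number of colours of `M` by membership -/
theorem cnt6 {a b c d e f : Fin 6} (hnd : [a, b, c, d, e, f].Nodup) (M : Set (Fin 6)) :
    M.ncard = (decide (a ∈ M)).toNat + (decide (b ∈ M)).toNat + (decide (c ∈ M)).toNat +
      (decide (d ∈ M)).toNat + (decide (e ∈ M)).toNat + (decide (f ∈ M)).toNat := by
  have h0 : M.ncard = ∑ i : Fin 6, (decide (i ∈ M)).toNat := by
    have : M = ((Finset.univ.filter fun i => i ∈ M : Finset (Fin 6)) : Set (Fin 6)) := by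
      ext i; simp
    conv_lhs => rw [this]
    rw [Set.ncard_coe_finset, Finset.card_filter]
    refine Finset.sum_congr rfl fun i _ => ?_
    by_cases hi : i ∈ M <;> simp [hi]
  have h1 : (Finset.univ : Finset (Fin 6)) = [a, b, c, d, e, f].toFinset := by
    symm
    refine Finset.eq_univ_of_card _ ?_
    rw [List.toFinset_card_of_nodup hnd]; rfl
  rw [h0, h1, List.sum_toFinset _ hnd]
  simp [add_assoc]

/-- the Boolean form of `M`, for six distinct colours -/
theorem bools {a b c d e f : Fin 6} (hnd : [a, b, c, d, e, f].Nodup) (M : Set (Fin 6)) :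
    ∃ A B C D E F : Bool, (a ∈ M ↔ A = true) ∧ (b ∈ M ↔ B = true) ∧ (c ∈ M ↔ C = true) ∧
      (d ∈ M ↔ D = true) ∧ (e ∈ M ↔ E = true) ∧ (f ∈ M ↔ F = true) ∧
      M.ncard = A.toNat + B.toNat + C.toNat + D.toNat + E.toNat + F.toNat := by
  classical
  refine ⟨decide (a ∈ M), decide (b ∈ M), decide (c ∈ M), decide (d ∈ M), decide (e ∈ M),
    decide (f ∈ M), by simp, by simp, by simp, by simp, by simp, by simp, cnt6 hnd M⟩

/-- **row of the apex table** -/
theorem Irr.row (h : Irr U T) {z y p : ℂ} {a b c d e f : Fin 6}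
    (hnd : [a, b, c, d, e, f].Nodup) (hz : DPt T z a b c d)
    (hpz : dist p z = 1) (hpy : dist p y = 1) (hne : y ≠ z) (hne2 : y + z ≠ 2 * p) {t : Fin 6}
    (ht : t ∈ T y) : (e ∈ T p ∧ t ≠ e) ∨ (f ∈ T p ∧ t ≠ f) ∨
      (a ∈ T p ∧ b ∈ T p ∧ t ≠ a ∧ t ≠ b) ∨ (c ∈ T p ∧ d ∈ T p ∧ t ≠ c ∧ t ≠ d) := by
  rcases h.apex_cases hz hpz hpy hne hne2 ht with ⟨i, hi, hiz, hit⟩ | h1 | h1
  · rw [hz.pal] at hiz
    simp only [mem_insert_iff, mem_singleton_iff, not_or] at hiz
    rcases all_six hnd i with rfl | rfl | rfl | rfl | rfl | rfl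
    · exact absurd rfl hiz.1
    · exact absurd rfl hiz.2.1
    · exact absurd rfl hiz.2.2.1
    · exact absurd rfl hiz.2.2.2
    · exact Or.inl ⟨hi, hit.symm⟩
    · exact Or.inr (Or.inl ⟨hi, hit.symm⟩)
  · exact Or.inr (Or.inr (Or.inl h1))
  · exact Or.inr (Or.inr (Or.inr h1))

/-- the inequalities -/
theorem nd6 {a b c d e f : Fin 6} (hnd : [a, b, c, d, e, f].Nodup) :
    (a ≠ b ∧ a ≠ c ∧ a ≠ d ∧ a ≠ e ∧ a ≠ f ∧ b ≠ c ∧ b ≠ d ∧ b ≠ e ∧ b ≠ f ∧ c ≠ d ∧ c ≠ e ∧
      c ≠ f ∧ d ≠ e ∧ d ≠ f ∧ e ≠ f) ∧ (b ≠ a ∧ c ≠ a ∧ d ≠ a ∧ e ≠ a ∧ f ≠ a ∧ c ≠ b ∧ d ≠ b ∧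
      e ≠ b ∧ f ≠ b ∧ d ≠ c ∧ e ≠ c ∧ f ≠ c ∧ e ≠ d ∧ f ≠ d ∧ f ≠ e) := by
  simp only [List.nodup_cons, List.mem_cons, List.not_mem_nil, or_false, not_or] at hnd
  tauto

/-- **alpha / one pair common**: `z = ab|cd`, `y = ae|bf`; any distance in `(0, 2)` -/
theorem Irr.apex_alpha (h : Irr U T) {z y p : ℂ} {a b c d e f : Fin 6}
    (hnd : [a, b, c, d, e, f].Nodup) (hz : DPt T z a b c d) (hy : DPt T y a e b f)
    (hpz : dist p z = 1) (hpy : dist p y = 1) (hne : y ≠ z) (hne2 : y + z ≠ 2 * p)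
    (h3 : (T p).ncard ≤ 3) : c ∈ T p ∧ d ∈ T p := by
  have hnz : [a, b, c, d, e, f].Nodup := by
    have := nd6 hnd
    simp only [List.nodup_cons, List.mem_cons, List.not_mem_nil, or_false, not_or]
    tauto
  have hny : [a, e, b, f, c, d].Nodup := by
    have := nd6 hnd
    simp only [List.nodup_cons, List.mem_cons, List.not_mem_nil, or_false, not_or]
    tauto
  obtain ⟨n, n'⟩ := nd6 hnd
  have hne2' : z + y ≠ 2 * p := by rw [add_comm]; exact hne2
  have r0 := h.row hnz hz hpz hpy hne hne2 (t := a) (by rw [hy.pal]; simp)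
  have r1 := h.row hnz hz hpz hpy hne hne2 (t := e) (by rw [hy.pal]; simp)
  have r2 := h.row hnz hz hpz hpy hne hne2 (t := b) (by rw [hy.pal]; simp)
  have r3 := h.row hnz hz hpz hpy hne hne2 (t := f) (by rw [hy.pal]; simp)
  have s0 := h.row hny hy hpy hpz hne.symm hne2' (t := a) (by rw [hz.pal]; simp)
  have s1 := h.row hny hy hpy hpz hne.symm hne2' (t := b) (by rw [hz.pal]; simp)
  have s2 := h.row hny hy hpy hpz hne.symm hne2' (t := c) (by rw [hz.pal]; simp)
  have s3 := h.row hny hy hpy hpz hne.symm hne2' (t := d) (by rw [hz.pal]; simp)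
  obtain ⟨A, B, C, D, E, F, hA, hB, hC, hD, hE, hF, hn⟩ := bools hnd (T p)
  simp only [n, n', hA, hB, hC, hD, hE, hF, ne_eq, not_true_eq_false, not_false_eq_true, and_true,
    and_false, or_false, false_or] at r0 r1 r2 r3 s0 s1 s2 s3 ⊢
  rw [hn] at h3
  clear hn hA hB hC hD hE hF n n' hnd hnz hny hz hy hpz hpy hne hne2 hne2'
  cases A <;> cases B <;> cases C <;> cases D <;> cases E <;> cases F <;>
    first | (exact absurd h3 (by decide)) | simp_all

/-- **same common pair**: `z = ab|cd`, `y = ab|ef` -/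
theorem Irr.apex_nn (h : Irr U T) {z y p : ℂ} {a b c d e f : Fin 6}
    (hnd : [a, b, c, d, e, f].Nodup) (hz : DPt T z a b c d) (hy : DPt T y a b e f)
    (hpz : dist p z = 1) (hpy : dist p y = 1) (hne : y ≠ z) (hne2 : y + z ≠ 2 * p)
    (h3 : (T p).ncard ≤ 3) : (c ∈ T p ∧ d ∈ T p) ∨ (e ∈ T p ∧ f ∈ T p) := by
  have hnz : [a, b, c, d, e, f].Nodup := by
    have := nd6 hnd
    simp only [List.nodup_cons, List.mem_cons, List.not_mem_nil, or_false, not_or]
    tauto
  have hny : [a, b, e, f, c, d].Nodup := by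
    have := nd6 hnd
    simp only [List.nodup_cons, List.mem_cons, List.not_mem_nil, or_false, not_or]
    tauto
  obtain ⟨n, n'⟩ := nd6 hnd
  have hne2' : z + y ≠ 2 * p := by rw [add_comm]; exact hne2
  have r0 := h.row hnz hz hpz hpy hne hne2 (t := a) (by rw [hy.pal]; simp)
  have r1 := h.row hnz hz hpz hpy hne hne2 (t := b) (by rw [hy.pal]; simp)
  have r2 := h.row hnz hz hpz hpy hne hne2 (t := e) (by rw [hy.pal]; simp)
  have r3 := h.row hnz hz hpz hpy hne hne2 (t := f) (by rw [hy.pal]; simp)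
  have s0 := h.row hny hy hpy hpz hne.symm hne2' (t := a) (by rw [hz.pal]; simp)
  have s1 := h.row hny hy hpy hpz hne.symm hne2' (t := b) (by rw [hz.pal]; simp)
  have s2 := h.row hny hy hpy hpz hne.symm hne2' (t := c) (by rw [hz.pal]; simp)
  have s3 := h.row hny hy hpy hpz hne.symm hne2' (t := d) (by rw [hz.pal]; simp)
  obtain ⟨A, B, C, D, E, F, hA, hB, hC, hD, hE, hF, hn⟩ := bools hnd (T p)
  simp only [n, n', hA, hB, hC, hD, hE, hF, ne_eq, not_true_eq_false, not_false_eq_true, and_true,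
    and_false, or_false, false_or] at r0 r1 r2 r3 s0 s1 s2 s3 ⊢
  rw [hn] at h3
  clear hn hA hB hC hD hE hF n n' hnd hnz hny hz hy hpz hpy hne hne2 hne2'
  cases A <;> cases B <;> cases C <;> cases D <;> cases E <;> cases F <;>
    first | (exact absurd h3 (by decide)) | simp_all

/-- **both pairs split** (the common point lemma): `z = ab|cd`, `y = ae|cf` -/
theorem Irr.apex_split (h : Irr U T) {z y p : ℂ} {a b c d e f : Fin 6}
    (hnd : [a, b, c, d, e, f].Nodup) (hz : DPt T z a b c d) (hy : DPt T y a e c f)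
    (hpz : dist p z = 1) (hpy : dist p y = 1) (hne : y ≠ z) (hne2 : y + z ≠ 2 * p)
    (h3 : (T p).ncard ≤ 3) : (a ∈ T p ∧ b ∈ T p ∧ e ∈ T p) ∨ (c ∈ T p ∧ d ∈ T p ∧ f ∈ T p) := by
  have hnz : [a, b, c, d, e, f].Nodup := by
    have := nd6 hnd
    simp only [List.nodup_cons, List.mem_cons, List.not_mem_nil, or_false, not_or]
    tauto
  have hny : [a, e, c, f, b, d].Nodup := by
    have := nd6 hnd
    simp only [List.nodup_cons, List.mem_cons, List.not_mem_nil, or_false, not_or]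
    tauto
  obtain ⟨n, n'⟩ := nd6 hnd
  have hne2' : z + y ≠ 2 * p := by rw [add_comm]; exact hne2
  have r0 := h.row hnz hz hpz hpy hne hne2 (t := a) (by rw [hy.pal]; simp)
  have r1 := h.row hnz hz hpz hpy hne hne2 (t := e) (by rw [hy.pal]; simp)
  have r2 := h.row hnz hz hpz hpy hne hne2 (t := c) (by rw [hy.pal]; simp)
  have r3 := h.row hnz hz hpz hpy hne hne2 (t := f) (by rw [hy.pal]; simp)
  have s0 := h.row hny hy hpy hpz hne.symm hne2' (t := a) (by rw [hz.pal]; simp)
  have s1 := h.row hny hy hpy hpz hne.symm hne2' (t := b) (by rw [hz.pal]; simp)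
  have s2 := h.row hny hy hpy hpz hne.symm hne2' (t := c) (by rw [hz.pal]; simp)
  have s3 := h.row hny hy hpy hpz hne.symm hne2' (t := d) (by rw [hz.pal]; simp)
  obtain ⟨A, B, C, D, E, F, hA, hB, hC, hD, hE, hF, hn⟩ := bools hnd (T p)
  simp only [n, n', hA, hB, hC, hD, hE, hF, ne_eq, not_true_eq_false, not_false_eq_true, and_true,
    and_false, or_false, false_or] at r0 r1 r2 r3 s0 s1 s2 s3 ⊢
  rw [hn] at h3
  clear hn hA hB hC hD hE hF n n' hnd hnz hny hz hy hpz hpy hne hne2 hne2'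
  cases A <;> cases B <;> cases C <;> cases D <;> cases E <;> cases F <;>
    first | (exact absurd h3 (by decide)) | simp_all

/-- **delta**: `z = ab|cd`, `y = ac|be` -/
theorem Irr.apex_delta (h : Irr U T) {z y p : ℂ} {a b c d e f : Fin 6}
    (hnd : [a, b, c, d, e, f].Nodup) (hz : DPt T z a b c d) (hy : DPt T y a c b e)
    (hpz : dist p z = 1) (hpy : dist p y = 1) (hne : y ≠ z) (hne2 : y + z ≠ 2 * p)
    (h3 : (T p).ncard ≤ 3) : f ∈ T p := by
  have hnz : [a, b, c, d, e, f].Nodup := by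
    have := nd6 hnd
    simp only [List.nodup_cons, List.mem_cons, List.not_mem_nil, or_false, not_or]
    tauto
  have hny : [a, c, b, e, d, f].Nodup := by
    have := nd6 hnd
    simp only [List.nodup_cons, List.mem_cons, List.not_mem_nil, or_false, not_or]
    tauto
  obtain ⟨n, n'⟩ := nd6 hnd
  have hne2' : z + y ≠ 2 * p := by rw [add_comm]; exact hne2
  have r0 := h.row hnz hz hpz hpy hne hne2 (t := a) (by rw [hy.pal]; simp)
  have r1 := h.row hnz hz hpz hpy hne hne2 (t := c) (by rw [hy.pal]; simp)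
  have r2 := h.row hnz hz hpz hpy hne hne2 (t := b) (by rw [hy.pal]; simp)
  have r3 := h.row hnz hz hpz hpy hne hne2 (t := e) (by rw [hy.pal]; simp)
  have s0 := h.row hny hy hpy hpz hne.symm hne2' (t := a) (by rw [hz.pal]; simp)
  have s1 := h.row hny hy hpy hpz hne.symm hne2' (t := b) (by rw [hz.pal]; simp)
  have s2 := h.row hny hy hpy hpz hne.symm hne2' (t := c) (by rw [hz.pal]; simp)
  have s3 := h.row hny hy hpy hpz hne.symm hne2' (t := d) (by rw [hz.pal]; simp)
  obtain ⟨A, B, C, D, E, F, hA, hB, hC, hD, hE, hF, hn⟩ := bools hnd (T p)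
  simp only [n, n', hA, hB, hC, hD, hE, hF, ne_eq, not_true_eq_false, not_false_eq_true, and_true,
    and_false, or_false, false_or] at r0 r1 r2 r3 s0 s1 s2 s3 ⊢
  rw [hn] at h3
  clear hn hA hB hC hD hE hF n n' hnd hnz hny hz hy hpz hpy hne hne2 hne2'
  cases A <;> cases B <;> cases C <;> cases D <;> cases E <;> cases F <;>
    first | (exact absurd h3 (by decide)) | simp_all

/-- **three common colours, same pair**: `z = ab|cd`, `y = ab|ce` -/
theorem Irr.apex_same (h : Irr U T) {z y p : ℂ} {a b c d e f : Fin 6}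
    (hnd : [a, b, c, d, e, f].Nodup) (hz : DPt T z a b c d) (hy : DPt T y a b c e)
    (hpz : dist p z = 1) (hpy : dist p y = 1) (hne : y ≠ z) (hne2 : y + z ≠ 2 * p)
    (h3 : (T p).ncard ≤ 3) : f ∈ T p ∨ (c ∈ T p ∧ d ∈ T p ∧ e ∈ T p) := by
  have hnz : [a, b, c, d, e, f].Nodup := by
    have := nd6 hnd
    simp only [List.nodup_cons, List.mem_cons, List.not_mem_nil, or_false, not_or]
    tauto
  have hny : [a, b, c, e, d, f].Nodup := by
    have := nd6 hnd
    simp only [List.nodup_cons, List.mem_cons, List.not_mem_nil, or_false, not_or]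
    tauto
  obtain ⟨n, n'⟩ := nd6 hnd
  have hne2' : z + y ≠ 2 * p := by rw [add_comm]; exact hne2
  have r0 := h.row hnz hz hpz hpy hne hne2 (t := a) (by rw [hy.pal]; simp)
  have r1 := h.row hnz hz hpz hpy hne hne2 (t := b) (by rw [hy.pal]; simp)
  have r2 := h.row hnz hz hpz hpy hne hne2 (t := c) (by rw [hy.pal]; simp)
  have r3 := h.row hnz hz hpz hpy hne hne2 (t := e) (by rw [hy.pal]; simp)
  have s0 := h.row hny hy hpy hpz hne.symm hne2' (t := a) (by rw [hz.pal]; simp)
  have s1 := h.row hny hy hpy hpz hne.symm hne2' (t := b) (by rw [hz.pal]; simp)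
  have s2 := h.row hny hy hpy hpz hne.symm hne2' (t := c) (by rw [hz.pal]; simp)
  have s3 := h.row hny hy hpy hpz hne.symm hne2' (t := d) (by rw [hz.pal]; simp)
  obtain ⟨A, B, C, D, E, F, hA, hB, hC, hD, hE, hF, hn⟩ := bools hnd (T p)
  simp only [n, n', hA, hB, hC, hD, hE, hF, ne_eq, not_true_eq_false, not_false_eq_true, and_true,
    and_false, or_false, false_or] at r0 r1 r2 r3 s0 s1 s2 s3 ⊢
  rw [hn] at h3
  clear hn hA hB hC hD hE hF n n' hnd hnz hny hz hy hpz hpy hne hne2 hne2'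
  cases A <;> cases B <;> cases C <;> cases D <;> cases E <;> cases F <;>
    first | (exact absurd h3 (by decide)) | simp_all

/-- **beta**: `z = ab|cd`, `y = ac|bd` -/
theorem Irr.apex_beta (h : Irr U T) {z y p : ℂ} {a b c d e f : Fin 6}
    (hnd : [a, b, c, d, e, f].Nodup) (hz : DPt T z a b c d) (hy : DPt T y a c b d)
    (hpz : dist p z = 1) (hpy : dist p y = 1) (hne : y ≠ z) (hne2 : y + z ≠ 2 * p)
    (h3 : (T p).ncard ≤ 3) : e ∈ T p ∨ f ∈ T p := by
  have hnz : [a, b, c, d, e, f].Nodup := by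
    have := nd6 hnd
    simp only [List.nodup_cons, List.mem_cons, List.not_mem_nil, or_false, not_or]
    tauto
  have hny : [a, c, b, d, e, f].Nodup := by
    have := nd6 hnd
    simp only [List.nodup_cons, List.mem_cons, List.not_mem_nil, or_false, not_or]
    tauto
  obtain ⟨n, n'⟩ := nd6 hnd
  have hne2' : z + y ≠ 2 * p := by rw [add_comm]; exact hne2
  have r0 := h.row hnz hz hpz hpy hne hne2 (t := a) (by rw [hy.pal]; simp)
  have r1 := h.row hnz hz hpz hpy hne hne2 (t := c) (by rw [hy.pal]; simp)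
  have r2 := h.row hnz hz hpz hpy hne hne2 (t := b) (by rw [hy.pal]; simp)
  have r3 := h.row hnz hz hpz hpy hne hne2 (t := d) (by rw [hy.pal]; simp)
  have s0 := h.row hny hy hpy hpz hne.symm hne2' (t := a) (by rw [hz.pal]; simp)
  have s1 := h.row hny hy hpy hpz hne.symm hne2' (t := b) (by rw [hz.pal]; simp)
  have s2 := h.row hny hy hpy hpz hne.symm hne2' (t := c) (by rw [hz.pal]; simp)
  have s3 := h.row hny hy hpy hpz hne.symm hne2' (t := d) (by rw [hz.pal]; simp)
  obtain ⟨A, B, C, D, E, F, hA, hB, hC, hD, hE, hF, hn⟩ := bools hnd (T p)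
  simp only [n, n', hA, hB, hC, hD, hE, hF, ne_eq, not_true_eq_false, not_false_eq_true, and_true,
    and_false, or_false, false_or] at r0 r1 r2 r3 s0 s1 s2 s3 ⊢
  rw [hn] at h3
  clear hn hA hB hC hD hE hF n n' hnd hnz hny hz hy hpz hpy hne hne2 hne2'
  cases A <;> cases B <;> cases C <;> cases D <;> cases E <;> cases F <;>
    first | (exact absurd h3 (by decide)) | simp_all

/-- **same pairs**: `z = ab|cd`, `y = ab|cd` -/
theorem Irr.apex_eq (h : Irr U T) {z y p : ℂ} {a b c d e f : Fin 6}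
    (hnd : [a, b, c, d, e, f].Nodup) (hz : DPt T z a b c d) (hy : DPt T y a b c d)
    (hpz : dist p z = 1) (hpy : dist p y = 1) (hne : y ≠ z) (hne2 : y + z ≠ 2 * p)
    (h3 : (T p).ncard ≤ 3) : e ∈ T p ∨ f ∈ T p := by
  have hnz : [a, b, c, d, e, f].Nodup := by
    have := nd6 hnd
    simp only [List.nodup_cons, List.mem_cons, List.not_mem_nil, or_false, not_or]
    tauto
  have hny : [a, b, c, d, e, f].Nodup := by
    have := nd6 hnd
    simp only [List.nodup_cons, List.mem_cons, List.not_mem_nil, or_false, not_or]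
    tauto
  obtain ⟨n, n'⟩ := nd6 hnd
  have hne2' : z + y ≠ 2 * p := by rw [add_comm]; exact hne2
  have r0 := h.row hnz hz hpz hpy hne hne2 (t := a) (by rw [hy.pal]; simp)
  have r1 := h.row hnz hz hpz hpy hne hne2 (t := b) (by rw [hy.pal]; simp)
  have r2 := h.row hnz hz hpz hpy hne hne2 (t := c) (by rw [hy.pal]; simp)
  have r3 := h.row hnz hz hpz hpy hne hne2 (t := d) (by rw [hy.pal]; simp)
  have s0 := h.row hny hy hpy hpz hne.symm hne2' (t := a) (by rw [hz.pal]; simp)
  have s1 := h.row hny hy hpy hpz hne.symm hne2' (t := b) (by rw [hz.pal]; simp)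
  have s2 := h.row hny hy hpy hpz hne.symm hne2' (t := c) (by rw [hz.pal]; simp)
  have s3 := h.row hny hy hpy hpz hne.symm hne2' (t := d) (by rw [hz.pal]; simp)
  obtain ⟨A, B, C, D, E, F, hA, hB, hC, hD, hE, hF, hn⟩ := bools hnd (T p)
  simp only [n, n', hA, hB, hC, hD, hE, hF, ne_eq, not_true_eq_false, not_false_eq_true, and_true,
    and_false, or_false, false_or] at r0 r1 r2 r3 s0 s1 s2 s3 ⊢
  rw [hn] at h3
  clear hn hA hB hC hD hE hF n n' hnd hnz hny hz hy hpz hpy hne hne2 hne2'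
  cases A <;> cases B <;> cases C <;> cases D <;> cases E <;> cases F <;>
    first | (exact absurd h3 (by decide)) | simp_all

end Vale.Agent.P032.Six
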