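import Vale.Agent.P032.H249.Delta

/-!
# P032: the two sides and the orientation of a beta pair

`z = ab|cd`, `V = ac|bd`, `|z - V| = 1`.  Near `V` one side of `S(z)` has only the colours `a`, `d`,
the other one only `b`, `c` (`Irr.beta_near`), and the half branches of the four exact arcs are
linked (`Irr.beta_orient`).
-/

open Set Filter Topology Metric

noncomputable section

namespace Vale.Agent.P032.Six

variable {U : Fin 6 → Set ℂ} {T : ℂ → Set (Fin 6)}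

/-- near a beta point `V` one side of `S(z)` has only `a`, `d`, the other one only `b`, `c` -/
theorem Irr.beta_near (h : Irr U T) {z V : ℂ} {a b c d : Fin 6} (hz : DPt T z a b c d)
    (hV : DPt T V a c b d) (hVz : dist V z = 1) :
    ((Sd U z V a b ∧ Sd U z V d c) ∧ (∀ᶠ x in 𝓝 V, dist x z < 1 → T x ⊆ {a, d}) ∧
      ∀ᶠ x in 𝓝 V, 1 < dist x z → T x ⊆ {b, c}) ∨
    ((Sd U z V b a ∧ Sd U z V c d) ∧ (∀ᶠ x in 𝓝 V, 1 < dist x z → T x ⊆ {a, d}) ∧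
      ∀ᶠ x in 𝓝 V, dist x z < 1 → T x ⊆ {b, c}) := by
  rcases h.delta_side hz hV hVz with hs | hs
  · refine Or.inl ⟨hs, (h.delta_near hV hs).1, ?_⟩
    filter_upwards [(h.delta_near hV hs).2, hs.2] with x h1 h2 h3 i hi
    rcases h1 h3 hi with rfl | rfl | rfl
    · simp
    · simp
    · exact absurd (h.sub _ hi) (h2.1 h3)
  · refine Or.inr ⟨hs, (h.delta_near' hV hs).1, ?_⟩
    filter_upwards [(h.delta_near' hV hs).2, hs.2] with x h1 h2 h3 i hi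
    rcases h1 h3 hi with rfl | rfl | rfl
    · simp
    · simp
    · exact absurd (h.sub _ hi) (h2.2 h3)

/-- **Orientation of a beta pair**: `z = ab|cd`, `V = ac|bd`. -/
theorem Irr.beta_orient (h : Irr U T) {z V : ℂ} {a b c d : Fin 6} (hz : DPt T z a b c d)
    (hV : DPt T V a c b d) (hVz : dist V z = 1) :
    ∃ τ : ℝ, (τ = 1 ∨ τ = -1) ∧ (∀ᶠ t : ℝ in 𝓝[>] 0, T (hb V z τ t) = {a, c}) ∧
      (∀ᶠ t : ℝ in 𝓝[>] 0, T (hb V z (-τ) t) = {b, d}) ∧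
      ((Sd U z V a b ∧ (∀ᶠ t : ℝ in 𝓝[>] 0, T (hb z V (-τ) t) = {a, b}) ∧
          ∀ᶠ t : ℝ in 𝓝[>] 0, T (hb z V τ t) = {c, d}) ∨
        (Sd U z V b a ∧ (∀ᶠ t : ℝ in 𝓝[>] 0, T (hb z V τ t) = {a, b}) ∧
          ∀ᶠ t : ℝ in 𝓝[>] 0, T (hb z V (-τ) t) = {c, d})) := by
  have hzV : dist z V = 1 := by rw [dist_comm]; exact hVz
  have hpal : T V = T z := by rw [hV.pal, hz.pal, Set.insert_comm c b]
  have haz : a ∈ T z := by rw [hz.pal]; simp
  have hcz : c ∈ T z := by rw [hz.pal]; simp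
  obtain ⟨τ, hτ, h1, h2⟩ := h.germ_beta4 hV hzV hpal.symm
  refine ⟨τ, hτ, h1, h2, ?_⟩
  obtain ⟨ρ, hρ, h3, h4⟩ := h.germ_beta4 hz hVz hpal
  have hJ : ∀ᶠ t : ℝ in 𝓝[>] 0, a ∈ Pal U (hb V z τ t) ∧ c ∈ Pal U (hb V z τ t) :=
    h1.mono fun t ht => ⟨h.sub _ (by rw [ht]; simp), h.sub _ (by rw [ht]; simp)⟩
  have hsub : T V ⊆ {b, a, c, d} := by
    rw [hV.pal]; rintro i (rfl | rfl | rfl | rfl) <;> simp
  have key : ∀ σ : ℝ, (σ = 1 ∨ σ = -1) → (∀ᶠ t : ℝ in 𝓝[>] 0, d ∈ T (hb z V σ t) ∧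
      a ∉ Pal U (hb z V σ t)) → ρ = -σ := by
    intro σ hσ hx
    rcases hρ with h5 | h5 <;> rcases hσ with h6 | h6 <;> rw [h5, h6]
    · exfalso
      rw [h5] at h3; rw [h6] at hx
      obtain ⟨t, h7, h8⟩ := (h3.and hx).exists
      exact h8.2 (h.sub _ (by rw [h7]; simp))
    · norm_num
    · exfalso
      rw [h5] at h3; rw [h6] at hx
      obtain ⟨t, h7, h8⟩ := (h3.and hx).exists
      exact h8.2 (h.sub _ (by rw [h7]; simp))
  rcases h.sides hz hVz with hs | hs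
  · left
    have h5 := key τ hτ (h.nappe_in hVz hsub (h.sub _ haz) (h.sub _ hcz) hτ hJ hs)
    rw [h5] at h3 h4
    rw [neg_neg] at h4
    exact ⟨hs, h3, h4⟩
  · right
    have h5 := key (-τ) (by rcases hτ with h6 | h6 <;> rw [h6] <;> norm_num)
      (h.nappe_out hVz hsub (h.sub _ haz) (h.sub _ hcz) hτ hJ hs)
    rw [neg_neg] at h5
    rw [h5] at h3 h4
    exact ⟨hs, h3, h4⟩

end Vale.Agent.P032.Six
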