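import Vale.Agent.P032.H249.Beta
import Vale.Agent.P032.S5.H824.Common

/-!
# P032: one centre per wall, contact form

`Irr.contact_unique`: `q ∈ S(w₁) ∩ S(w₂)`, exact `xy`-arcs of `S(w₁)` accumulate at `q` (a contact),
`T q ≠ {x, y}`, and `S(w₂)` has side data for `x, y` at `q` (every two-pair centre with the pair `xy`
has): then `w₁ = w₂`.  In particular at a three-coloured point every pair is used by at most one
two-pair centre, and there are at most three two-pair centres in contact.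
-/

open Set Filter Topology Metric

noncomputable section

namespace Vale.Agent.P032.Six

section gen

variable {k : ℕ} {U : Fin k → Set ℂ} {T : ℂ → Set (Fin k)}

/-- with side data a common point of `x` and `y` near `q` lies on the circle -/
theorem Irr.on_circle (h : Irr U T) {w q : ℂ} {x y : Fin k} (hs : Sd U w q x y ∨ Sd U w q y x) :
    ∀ᶠ p in 𝓝 q, x ∈ T p → y ∈ T p → dist p w = 1 := by
  rcases hs with hs | hs
  · filter_upwards [hs] with p hp hx hy
    rcases lt_trichotomy (dist p w) 1 with h1 | h1 | h1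
    · exact absurd (h.sub _ hy) (hp.2 h1)
    · exact h1
    · exact absurd (h.sub _ hx) (hp.1 h1)
  · filter_upwards [hs] with p hp hx hy
    rcases lt_trichotomy (dist p w) 1 with h1 | h1 | h1
    · exact absurd (h.sub _ hx) (hp.2 h1)
    · exact h1
    · exact absurd (h.sub _ hy) (hp.1 h1)

/-- two different unit circles have no common point near a common point `q`, except `q` -/
theorem circles_iso {w₁ w₂ q : ℂ} (h1 : dist q w₁ = 1) (h2 : dist q w₂ = 1) (hne : w₁ ≠ w₂) :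
    ∀ᶠ p in 𝓝 q, dist p w₁ = 1 → dist p w₂ = 1 → p = q := by
  by_cases hanti : w₁ + w₂ - q = q
  · refine Filter.Eventually.of_forall fun p hp1 hp2 => ?_
    by_contra hpq
    have := second_point hne hp1 hp2 h1 h2 hpq
    exact hpq (by linear_combination this + hanti)
  · filter_upwards [isOpen_ne.mem_nhds (Ne.symm hanti)] with p hp hp1 hp2
    by_contra hpq
    have := second_point hne hp1 hp2 h1 h2 hpq
    exact hp (by linear_combination this)

/-- **One centre per wall, contact form.** -/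
theorem Irr.contact_unique (h : Irr U T) {w₁ w₂ q : ℂ} {x y : Fin k} (h1 : dist q w₁ = 1)
    (h2 : dist q w₂ = 1) (hL : Lt T w₁ q {x, y}) (hq : T q ≠ {x, y})
    (hs : Sd U w₂ q x y ∨ Sd U w₂ q y x) : w₁ = w₂ := by
  by_contra hne
  have h3 : ∀ᶠ p in 𝓝[sphere w₁ 1] q, p ∈ sphere w₁ 1 → T p = {x, y} → False := by
    filter_upwards [mem_nhdsWithin_of_mem_nhds (h.on_circle hs),
      mem_nhdsWithin_of_mem_nhds (circles_iso h1 h2 hne)] with p h4 h5 h6 h7
    have h8 := h5 h6 (h4 (by rw [h7]; simp) (by rw [h7]; simp))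
    exact hq (h8 ▸ h7)
  obtain ⟨p, hp, hp1, hp2⟩ := (hL.freq.and_eventually (h3.and self_mem_nhdsWithin)).exists
  exact hp1 hp2 hp

/-- two-pair centres in contact at `q` with the same pair are equal -/
theorem Irr.contact_dpt (h : Irr U T) {w₁ w₂ q : ℂ} {x y c d : Fin k} (h1 : dist q w₁ = 1)
    (h2 : dist q w₂ = 1) (hL : Lt T w₁ q {x, y}) (hq : T q ≠ {x, y}) (hw : DPt T w₂ x y c d) :
    w₁ = w₂ :=
  h.contact_unique h1 h2 hL hq (h.sides hw h2)

end gen

variable {U : Fin 6 → Set ℂ} {T : ℂ → Set (Fin 6)}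

/-- `Lt` for an exact half branch -/
theorem Irr.lt_of_hb (h : Irr U T) {w V : ℂ} {x y : Fin 6} {τ : ℝ} (hxy : x ≠ y) (hx : x ∈ T w)
    (hy : y ∈ T w) (hVw : dist V w = 1) (hex : ∀ᶠ t : ℝ in 𝓝[>] 0, T (hb w V τ t) = {x, y}) :
    Lt T w V {x, y} := by
  have harc := h.arcs_of_exact hxy hx hy hVw hex
  have ht : Tendsto (hb w V τ) (𝓝[>] 0) (𝓝[sphere w 1] V) :=
    tendsto_nhdsWithin_iff.2 ⟨tendsto_hb w V τ, Eventually.of_forall fun t => dist_hb hVw τ t⟩
  exact ht.frequently (p := fun u => Arc T w u {x, y}) harc.frequently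

/-- **The owner at a delta hub is a two-pair centre**: `z = ab|cd`, `V = ac|be`, `w ∈ S(V)` with
`T w = {a, e, d, f}` and exact `df`-arcs of `S(w)` at some point: `w = ae|df`, contact `ae` at `V`. -/
theorem Irr.delta_owner (h : Irr U T) {z V w q : ℂ} {a b c d e f : Fin 6}
    (hnd : [a, b, c, d, e, f].Nodup) (hz : DPt T z a b c d) (hV : DPt T V a c b e)
    (hVz : dist V z = 1) (hVw : dist V w = 1) (hwz : w ≠ z) (hwz2 : w + z ≠ 2 * V)
    (hTw : T w = {a, e, d, f}) (hL : Lt T w q {d, f}) :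
    DPt T w a e d f ∧ Lt T w V {a, e} ∧
      ∃ τ : ℝ, (τ = 1 ∨ τ = -1) ∧ (∀ᶠ t : ℝ in 𝓝[>] 0, T (hb w V τ t) = {a, e}) ∧
      ((Sd U z V a b ∧ τ * sg w V z < 0) ∨ (Sd U z V b a ∧ 0 < τ * sg w V z)) := by
  obtain ⟨⟨nab, nac, nad, nae, naf, nbc, nbd, nbe, nbf, ncd, nce, ncf, nde, ndf, nef⟩, -⟩ :=
    nd6 hnd
  have ha : a ∈ T w := by rw [hTw]; simp
  have he : e ∈ T w := by rw [hTw]; simp
  obtain ⟨τ, hτ, h1, h2⟩ := h.delta_exact hz hV hVz hVw hwz hwz2 ha he
  obtain ⟨t, ht⟩ := (h.arcs_of_exact nae ha he hVw h1).exists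
  obtain ⟨y, hy⟩ := hL.exists
  exact ⟨⟨hTw, nad, naf, nde.symm, nef, nae, ndf, ⟨_, ht⟩, ⟨_, hy⟩⟩,
    h.lt_of_hb nae ha he hVw h1, τ, hτ, h1, h2⟩

/-- **At most one owner of the wall `a|e`** of a delta hub `V = ac|be`: two centres with `a, e` in
their palettes, one of them with the pair `ae`, coincide. -/
theorem Irr.delta_owner_unique (h : Irr U T) {z V w w' : ℂ} {a b c d e x y : Fin 6}
    (hz : DPt T z a b c d) (hV : DPt T V a c b e) (hVz : dist V z = 1) (hVw : dist V w = 1)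
    (hwz : w ≠ z) (hwz2 : w + z ≠ 2 * V) (ha : a ∈ T w) (he : e ∈ T w) (hae : a ≠ e)
    (hVw' : dist V w' = 1) (hw' : DPt T w' a e x y) : w = w' := by
  obtain ⟨τ, -, h1, -⟩ := h.delta_exact hz hV hVz hVw hwz hwz2 ha he
  refine h.contact_dpt hVw hVw' (h.lt_of_hb hae ha he hVw h1) ?_ hw'
  rw [hV.pal]
  intro hcon
  have hc : c ∈ ({a, e} : Set (Fin 6)) := by rw [← hcon]; simp
  have hb' : b ∈ ({a, e} : Set (Fin 6)) := by rw [← hcon]; simp
  rcases hc with h5 | h5
  · exact hV.ab h5.symm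
  · have hb2 : b ∈ ({a, e} : Set (Fin 6)) := hb'
    rcases hb2 with h6 | h6
    · exact hV.ac h6.symm
    · exact hV.cd h6

end Vale.Agent.P032.Six
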