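import Vale.Agent.P032.H249.RhD5

/-!
# P032: the two sides of a delta pair

`z = ab|cd`, `V = ac|be`, `|z - V| = 1`.  Near `V` the colour `a` is on one side of `S(z)` only and
`b`, `c` are on the other side only (`Irr.delta_side`).  Hence every circle `S(w)` through `V`, not
tangent to `S(z)`, with `a, e ∈ T w` is exact `ae` on the half branch at `V` on the side of `a`
(`Irr.delta_exact`), `w` arbitrary.
-/

open Set Filter Topology Metric

noncomputable section

namespace Vale.Agent.P032.Six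

section gen

variable {k : ℕ} {U : Fin k → Set ℂ} {T : ℂ → Set (Fin k)}

theorem ray_absent_out {z V u : ℂ} {a : Fin k} (hVz : dist V z = 1) (hr : Ray (U a) V u)
    (hu : ip u (z - V) < 0) (ho : OutF U z V a) : False := by
  obtain ⟨r, h1, h2, h3⟩ := (hr.and ((ray_out hVz hu).and ((tendsto_ray V u).eventually ho))).exists
  exact h3 h2 (subset_closure h1)

theorem ray_absent_in {z V u : ℂ} {a : Fin k} (hVz : dist V z = 1) (hr : Ray (U a) V u)
    (hu : 0 < ip u (z - V)) (ho : InF U z V a) : False := by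
  obtain ⟨r, h1, h2, h3⟩ := (hr.and ((ray_in hVz hu).and ((tendsto_ray V u).eventually ho))).exists
  exact h3 h2 (subset_closure h1)

theorem ip_neg' (u v : ℂ) : ip (-u) v = -ip u v := by
  unfold ip; simp only [Complex.neg_re, Complex.neg_im]; ring

/-- `V = ac|be`: at any circle through `V` the colours `a`, `c` are not absent on the same side -/
theorem Irr.opp_sides (h : Irr U T) {z V : ℂ} {a c b e : Fin k} (hV : DPt T V a c b e)
    (hVz : dist V z = 1) : ¬ (OutF U z V a ∧ OutF U z V c) ∧ ¬ (InF U z V a ∧ InF U z V c) := by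
  obtain ⟨p, hp⟩ := hV.arc2
  obtain ⟨g, hg, hgz, hgz2⟩ := hp.exists_off_line (y := z)
  have hzV : dist z V = 1 := by rw [dist_comm]; exact hVz
  have hcr := cr_ne_of hg.1 hzV hgz hgz2
  rw [← ip_I] at hcr
  rcases h.d0 hV hg with ⟨h1, h2⟩ | ⟨h1, h2⟩
  · rcases lt_or_gt_of_ne hcr with h3 | h3
    · exact ⟨fun hc => ray_absent_out hVz h1 h3 hc.1,
        fun hc => ray_absent_in hVz h2 (by rw [ip_neg']; linarith) hc.2⟩
    · exact ⟨fun hc => ray_absent_out hVz h2 (by rw [ip_neg']; linarith) hc.2,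
        fun hc => ray_absent_in hVz h1 h3 hc.1⟩
  · rcases lt_or_gt_of_ne hcr with h3 | h3
    · exact ⟨fun hc => ray_absent_out hVz h1 h3 hc.2,
        fun hc => ray_absent_in hVz h2 (by rw [ip_neg']; linarith) hc.1⟩
    · exact ⟨fun hc => ray_absent_out hVz h2 (by rw [ip_neg']; linarith) hc.1,
        fun hc => ray_absent_in hVz h1 h3 hc.2⟩

/-- **Sides of a delta pair.** -/
theorem Irr.delta_side (h : Irr U T) {z V : ℂ} {a b c d e : Fin k} (hz : DPt T z a b c d)
    (hV : DPt T V a c b e) (hVz : dist V z = 1) :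
    (Sd U z V a b ∧ Sd U z V d c) ∨ (Sd U z V b a ∧ Sd U z V c d) := by
  have ho := h.opp_sides hV hVz
  rcases h.sides hz hVz with h1 | h1 <;> rcases h.sides hz.swap hVz with h2 | h2
  · exact absurd ⟨(sd_iff_F.1 h1).1, (sd_iff_F.1 h2).1⟩ ho.1
  · exact Or.inl ⟨h1, h2⟩
  · exact Or.inr ⟨h1, h2⟩
  · exact absurd ⟨(sd_iff_F.1 h1).2, (sd_iff_F.1 h2).2⟩ ho.2

/-- a point of `S(w)` whose palette lies in `T w` has two colours at least -/
theorem Irr.two_of_sub (h : Irr U T) {w y : ℂ} (hy : dist y w = 1) (hs : T y ⊆ T w) :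
    2 ≤ (T y).ncard := by
  obtain ⟨q1, hq1V, hq1z, -, -, h2, h3⟩ := h.arc_of_sub (x := w) (y := y) hy hs (h.nhd y)
  exact h2.trans (Set.ncard_le_ncard hq1V (Set.toFinite _))

/-- near `V` the colours inside and outside `S(z)` -/
theorem Irr.delta_near (h : Irr U T) {z V : ℂ} {a b c d e : Fin k} (hV : DPt T V a c b e)
    (hs : Sd U z V a b ∧ Sd U z V d c) :
    (∀ᶠ x in 𝓝 V, dist x z < 1 → T x ⊆ {a, e}) ∧ ∀ᶠ x in 𝓝 V, 1 < dist x z → T x ⊆ {b, c, e} := by
  constructor
  · filter_upwards [hs.1, hs.2, h.nhd V] with x h1 h2 h3 h4 i hi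
    have h5 := h3 hi
    rw [hV.pal] at h5
    rcases h5 with rfl | rfl | rfl | rfl
    · simp
    · exact absurd (h.sub _ hi) (h2.2 h4)
    · exact absurd (h.sub _ hi) (h1.2 h4)
    · simp
  · filter_upwards [hs.1, h.nhd V] with x h1 h3 h4 i hi
    have h5 := h3 hi
    rw [hV.pal] at h5
    rcases h5 with rfl | rfl | rfl | rfl
    · exact absurd (h.sub _ hi) (h1.1 h4)
    · simp
    · simp
    · simp

theorem Irr.delta_near' (h : Irr U T) {z V : ℂ} {a b c d e : Fin k} (hV : DPt T V a c b e)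
    (hs : Sd U z V b a ∧ Sd U z V c d) :
    (∀ᶠ x in 𝓝 V, 1 < dist x z → T x ⊆ {a, e}) ∧ ∀ᶠ x in 𝓝 V, dist x z < 1 → T x ⊆ {b, c, e} := by
  constructor
  · filter_upwards [hs.1, hs.2, h.nhd V] with x h1 h2 h3 h4 i hi
    have h5 := h3 hi
    rw [hV.pal] at h5
    rcases h5 with rfl | rfl | rfl | rfl
    · simp
    · exact absurd (h.sub _ hi) (h2.1 h4)
    · exact absurd (h.sub _ hi) (h1.1 h4)
    · simp
  · filter_upwards [hs.1, h.nhd V] with x h1 h3 h4 i hi
    have h5 := h3 hi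
    rw [hV.pal] at h5
    rcases h5 with rfl | rfl | rfl | rfl
    · exact absurd (h.sub _ hi) (h1.2 h4)
    · simp
    · simp
    · simp

/-- a sign with a given sign of the product -/
theorem exists_sign {s : ℝ} (hs : s ≠ 0) : (∃ τ : ℝ, (τ = 1 ∨ τ = -1) ∧ τ * s < 0) ∧
    ∃ τ : ℝ, (τ = 1 ∨ τ = -1) ∧ 0 < τ * s := by
  rcases lt_or_gt_of_ne hs with h1 | h1
  · exact ⟨⟨1, Or.inl rfl, by linarith⟩, ⟨-1, Or.inr rfl, by linarith⟩⟩
  · exact ⟨⟨-1, Or.inr rfl, by linarith⟩, ⟨1, Or.inl rfl, by linarith⟩⟩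

/-- **Exact half branch at a delta point**: `z = ab|cd`, `V = ac|be`, `w` any other centre on `S(V)`
with `a, e ∈ T w`: the circle `S(w)` is exact `ae` on the half branch at `V` on the side of `a`. -/
theorem Irr.delta_exact (h : Irr U T) {z V w : ℂ} {a b c d e : Fin k} (hz : DPt T z a b c d)
    (hV : DPt T V a c b e) (hVz : dist V z = 1) (hVw : dist V w = 1) (hwz : w ≠ z)
    (hwz2 : w + z ≠ 2 * V) (ha : a ∈ T w) (he : e ∈ T w) :
    ∃ τ : ℝ, (τ = 1 ∨ τ = -1) ∧ (∀ᶠ t : ℝ in 𝓝[>] 0, T (hb w V τ t) = {a, e}) ∧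
      ((Sd U z V a b ∧ τ * sg w V z < 0) ∨ (Sd U z V b a ∧ 0 < τ * sg w V z)) := by
  have hzV : dist z V = 1 := by rw [dist_comm]; exact hVz
  have hsg : sg w V z ≠ 0 := sg_ne hVw hzV hwz.symm (by rw [add_comm]; exact hwz2)
  rcases h.delta_side hz hV hVz with hs | hs
  · obtain ⟨τ, hτ, hτ'⟩ := (exists_sign hsg).1
    refine ⟨τ, hτ, ?_, Or.inl ⟨hs.1, hτ'⟩⟩
    filter_upwards [hb_in (z := w) (v := V) (g := z) hzV hτ',
      (tendsto_hb w V τ).eventually (h.delta_near hV hs).1] with t h1 h2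
    exact h.pair_of_sub (dist_hb hVw τ t) (h.sub _ ha) (h.sub _ he) (h2 h1)
  · obtain ⟨τ, hτ, hτ'⟩ := (exists_sign hsg).2
    refine ⟨τ, hτ, ?_, Or.inr ⟨hs.1, hτ'⟩⟩
    filter_upwards [hb_out (z := w) (v := V) (g := z) hzV hτ',
      (tendsto_hb w V τ).eventually (h.delta_near' hV hs).1] with t h1 h2
    exact h.pair_of_sub (dist_hb hVw τ t) (h.sub _ ha) (h.sub _ he) (h2 h1)

/-- **No flip at an alpha point**: `z = ab|cd`, `V = af|be`: `S(z)` does not carry `e` on one half
branch at `V` and `f` on the other one. -/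
theorem Irr.alpha_noflip (h : Irr U T) {z V : ℂ} {a b c d e f : Fin k} (hz : DPt T z a b c d)
    (hV : DPt T V a f b e) (hVz : dist V z = 1) {τ : ℝ} (hτ : τ = 1 ∨ τ = -1)
    (he : ∃ᶠ t : ℝ in 𝓝[>] 0, e ∈ T (hb z V τ t))
    (hf : ∃ᶠ t : ℝ in 𝓝[>] 0, f ∈ T (hb z V (-τ) t)) : False := by
  have hzV : dist z V = 1 := by rw [dist_comm]; exact hVz
  obtain ⟨p1, hp1⟩ := hV.arc1
  obtain ⟨g1, hg1, hn1, hn1', -, -⟩ := hp1.exists_off_two (y := z) (y' := z)
  obtain ⟨p2, hp2⟩ := hV.arc2
  obtain ⟨g2, hg2, hn2, hn2', hn3, hn3'⟩ := hp2.exists_off_two (y := z) (y' := g1)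
  have hT1 : T g1 = {a, f} := hg1.2.self_of_nhdsWithin hg1.1
  have hT2 : T g2 = {b, e} := hg2.2.self_of_nhdsWithin hg2.1
  obtain ⟨ε1, hε1, rb, re⟩ := h.d0_sign hV.swap hg1
  obtain ⟨ε2, hε2, ra, rf⟩ := h.d0_sign hV hg2
  set n := z - V with hn
  set s1 := sg z V g1 with hs1
  set s2 := sg z V g2 with hs2
  set κ := cr (g1 - V) (g2 - V) with hκ
  have k0 : κ ≠ 0 := cr_ne_of hg1.1 hg2.1 hn3.symm (by rw [add_comm]; exact hn3')
  have e1 : ip (Complex.I * (g1 - V)) n = -s1 := by
    rw [ip_I, hs1, hn]; unfold sg cr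
    simp only [Complex.sub_re, Complex.sub_im]; ring
  have e2 : ip (Complex.I * (g2 - V)) n = -s2 := by
    rw [ip_I, hs2, hn]; unfold sg cr
    simp only [Complex.sub_re, Complex.sub_im]; ring
  have e3 : ip (Complex.I * (g2 - V)) (g1 - V) = -κ := by
    rw [ip_I, hκ]; unfold cr; ring
  have e4 : ip (Complex.I * (g1 - V)) (g2 - V) = κ := by rw [ip_I]
  have q1 : s1 ≠ 0 := sg_ne hVz (by rw [hg1.1]) hn1 hn1'
  have q2 : s2 ≠ 0 := sg_ne hVz (by rw [hg2.1]) hn2 hn2'
  -- (iv), (v)
  have iv : ∃ σ1 : ℝ, (σ1 = 1 ∨ σ1 = -1) ∧ 0 < σ1 * (τ * s1) ∧ 0 < σ1 * (ε2 * κ) := by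
    rcases h.sides hV hg1.1 with hs | hs
    · -- `a` inside, `f` outside
      refine ⟨-1, Or.inr rfl, ?_, ?_⟩
      · have h1 := (h.germ_sd (z := z) hg1 hs).1 (-τ)
        by_contra hcon
        have h2 : -τ * s1 < 0 := by
          rcases lt_trichotomy (τ * s1) 0 with h3 | h3 | h3
          · exfalso; apply hcon; linarith
          · exfalso
            rcases hτ with h4 | h4 <;> rw [h4] at h3 <;> apply q1 <;> linarith
          · linarith
        obtain ⟨t, h3, h4⟩ := (hf.and_eventually (h1 h2)).exists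
        exact h4 (h.sub _ h3)
      · by_contra hcon
        have h2 : 0 < ε2 * κ := by
          rcases lt_trichotomy (ε2 * κ) 0 with h3 | h3 | h3
          · exfalso; apply hcon; linarith
          · exfalso
            rcases hε2 with h4 | h4 <;> rw [h4] at h3 <;> apply k0 <;> linarith
          · exact h3
        have h3 : InF U V g1 a := h.mx.ray_in ra hg1.1 (by rw [ip_smul, e3]; linarith)
        exact h.not_both_free (by rw [hT1]; simp) (sd_iff_F.1 hs).1 h3
    · refine ⟨1, Or.inl rfl, ?_, ?_⟩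
      · have h1 := (h.germ_sd (z := z) (a := f) (b := a) (by rwa [Set.pair_comm]) hs).2 (-τ)
        by_contra hcon
        have h2 : 0 < -τ * s1 := by
          rcases lt_trichotomy (τ * s1) 0 with h3 | h3 | h3
          · linarith
          · exfalso
            rcases hτ with h4 | h4 <;> rw [h4] at h3 <;> apply q1 <;> linarith
          · exfalso; apply hcon; linarith
        obtain ⟨t, h3, h4⟩ := (hf.and_eventually (h1 h2)).exists
        exact h4 (h.sub _ h3)
      · by_contra hcon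
        have h2 : ε2 * κ < 0 := by
          rcases lt_trichotomy (ε2 * κ) 0 with h3 | h3 | h3
          · exact h3
          · exfalso
            rcases hε2 with h4 | h4 <;> rw [h4] at h3 <;> apply k0 <;> linarith
          · exfalso; apply hcon; linarith
        have h3 : OutF U V g1 a := h.mx.ray_out ra hg1.1 (by rw [ip_smul, e3]; linarith)
        exact h.not_both_free (by rw [hT1]; simp) h3 (sd_iff_F.1 hs).2
  have v : ∃ σ2 : ℝ, (σ2 = 1 ∨ σ2 = -1) ∧ σ2 * (τ * s2) < 0 ∧ σ2 * (ε1 * κ) < 0 := by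
    rcases h.sides hV.swap hg2.1 with hs | hs
    · -- `b` inside, `e` outside
      refine ⟨-1, Or.inr rfl, ?_, ?_⟩
      · have h1 := (h.germ_sd (z := z) hg2 hs).1 τ
        by_contra hcon
        have h2 : τ * s2 < 0 := by
          rcases lt_trichotomy (τ * s2) 0 with h3 | h3 | h3
          · exact h3
          · exfalso
            rcases hτ with h4 | h4 <;> rw [h4] at h3 <;> apply q2 <;> linarith
          · exfalso; apply hcon; linarith
        obtain ⟨t, h3, h4⟩ := (he.and_eventually (h1 h2)).exists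
        exact h4 (h.sub _ h3)
      · by_contra hcon
        have h2 : ε1 * κ < 0 := by
          rcases lt_trichotomy (ε1 * κ) 0 with h3 | h3 | h3
          · exact h3
          · exfalso
            rcases hε1 with h4 | h4 <;> rw [h4] at h3 <;> apply k0 <;> linarith
          · exfalso; apply hcon; linarith
        have h3 : InF U V g2 b := h.mx.ray_in rb hg2.1 (by rw [ip_smul, e4]; linarith)
        exact h.not_both_free (by rw [hT2]; simp) (sd_iff_F.1 hs).1 h3
    · refine ⟨1, Or.inl rfl, ?_, ?_⟩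
      · have h1 := (h.germ_sd (z := z) (a := e) (b := b) (by rwa [Set.pair_comm]) hs).2 τ
        by_contra hcon
        have h2 : 0 < τ * s2 := by
          rcases lt_trichotomy (τ * s2) 0 with h3 | h3 | h3
          · exfalso; apply hcon; linarith
          · exfalso
            rcases hτ with h4 | h4 <;> rw [h4] at h3 <;> apply q2 <;> linarith
          · exact h3
        obtain ⟨t, h3, h4⟩ := (he.and_eventually (h1 h2)).exists
        exact h4 (h.sub _ h3)
      · by_contra hcon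
        have h2 : 0 < ε1 * κ := by
          rcases lt_trichotomy (ε1 * κ) 0 with h3 | h3 | h3
          · exfalso; apply hcon; linarith
          · exfalso
            rcases hε1 with h4 | h4 <;> rw [h4] at h3 <;> apply k0 <;> linarith
          · exact h3
        have h3 : OutF U V g2 b := h.mx.ray_out rb hg2.1 (by rw [ip_smul, e4]; linarith)
        exact h.not_both_free (by rw [hT2]; simp) h3 (sd_iff_F.1 hs).2
  obtain ⟨σ1, -, v1, v2⟩ := iv
  obtain ⟨σ2, -, v3, v4⟩ := v
  -- (ii), (iii)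
  have ii : (0 < ε1 * s1 ∧ ε2 * s2 < 0) ∨ (ε1 * s1 < 0 ∧ 0 < ε2 * s2) := by
    rcases h.sides hz hVz with hs | hs
    · left
      constructor
      · by_contra hcon
        have h2 : ε1 * s1 < 0 := by
          rcases lt_trichotomy (ε1 * s1) 0 with h3 | h3 | h3
          · exact h3
          · exfalso
            rcases hε1 with h4 | h4 <;> rw [h4] at h3 <;> apply q1 <;> linarith
          · exact absurd h3 hcon
        exact ray_absent_in hVz rb (by rw [ip_smul, ← hn, e1]; linarith) (sd_iff_F.1 hs).2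
      · by_contra hcon
        have h2 : 0 < ε2 * s2 := by
          rcases lt_trichotomy (ε2 * s2) 0 with h3 | h3 | h3
          · exact absurd h3 hcon
          · exfalso
            rcases hε2 with h4 | h4 <;> rw [h4] at h3 <;> apply q2 <;> linarith
          · exact h3
        exact ray_absent_out hVz ra (by rw [ip_smul, ← hn, e2]; linarith) (sd_iff_F.1 hs).1
    · right
      constructor
      · by_contra hcon
        have h2 : 0 < ε1 * s1 := by
          rcases lt_trichotomy (ε1 * s1) 0 with h3 | h3 | h3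
          · exact absurd h3 hcon
          · exfalso
            rcases hε1 with h4 | h4 <;> rw [h4] at h3 <;> apply q1 <;> linarith
          · exact h3
        exact ray_absent_out hVz rb (by rw [ip_smul, ← hn, e1]; linarith) (sd_iff_F.1 hs).1
      · by_contra hcon
        have h2 : ε2 * s2 < 0 := by
          rcases lt_trichotomy (ε2 * s2) 0 with h3 | h3 | h3
          · exact h3
          · exfalso
            rcases hε2 with h4 | h4 <;> rw [h4] at h3 <;> apply q2 <;> linarith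
          · exact absurd h3 hcon
        exact ray_absent_in hVz ra (by rw [ip_smul, ← hn, e2]; linarith) (sd_iff_F.1 hs).2
  -- contradiction
  have m1 : 0 < (σ1 * (τ * s1)) * (σ1 * (ε2 * κ)) := mul_pos v1 v2
  have m2 : 0 < (σ2 * (τ * s2)) * (σ2 * (ε1 * κ)) := mul_pos_of_neg_of_neg v3 v4
  have t2 : τ * τ = 1 := by rcases hτ with h1 | h1 <;> rw [h1] <;> norm_num
  have m3 := mul_pos m1 m2
  have m4 : (σ1 * (τ * s1)) * (σ1 * (ε2 * κ)) * ((σ2 * (τ * s2)) * (σ2 * (ε1 * κ))) =
      (σ1 * σ2 * κ) ^ 2 * ((ε1 * s1) * (ε2 * s2)) * (τ * τ) := by ring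
  rw [m4, t2, mul_one] at m3
  have m5 : (ε1 * s1) * (ε2 * s2) < 0 := by
    rcases ii with ⟨h1, h2⟩ | ⟨h1, h2⟩
    · exact mul_neg_of_pos_of_neg h1 h2
    · exact mul_neg_of_neg_of_pos h1 h2
  nlinarith [sq_nonneg (σ1 * σ2 * κ)]

/-- **Alpha point**: `z = ab|cd`, `V = af|be`: `S(z)` is exact `ab` on one half branch at `V` and has
only `e`, `f` on the other one. -/
theorem Irr.alpha_exact (h : Irr U T) {z V : ℂ} {a b c d e f : Fin k} (hz : DPt T z a b c d)
    (hV : DPt T V a f b e) (hVz : dist V z = 1) :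
    ∃ τ : ℝ, (τ = 1 ∨ τ = -1) ∧ (∀ᶠ t : ℝ in 𝓝[>] 0, T (hb z V τ t) = {a, b}) ∧
      ∀ᶠ t : ℝ in 𝓝[>] 0, T (hb z V (-τ) t) ⊆ {e, f} := by
  have haz : a ∈ T z := by rw [hz.pal]; simp
  have hbz : b ∈ T z := by rw [hz.pal]; simp
  obtain ⟨τ, hτ, ⟨h1, h2⟩ | ⟨h1, h2⟩⟩ := h.germ_cross haz hbz hV hVz
  · exact ⟨τ, hτ, h1, h2⟩
  · exact (h.alpha_noflip hz hV hVz hτ (h1.mono fun t ht => ht.2).frequently
      (h2.mono fun t ht => ht.2).frequently).elim

end gen

end Vale.Agent.P032.Six
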