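import Vale.Agent.P032.H249.Wall
import Vale.Agent.P032.S5.H12.Inn

/-!
# P032: the rhombus at a two-pair hub

Frame `Irr U T`, six colours.  `z = ab|cd`, `V ∈ S(z)` a two-pair point `ae|bf` at which an exact
`ab`-arc of `S(z)` ends (alpha), `q ∈ S(z)` with `T q = {c, d, e}`, `w = V + q - z` with
`a, e ∈ T w`, `|T w| ≤ 4` (`w` is an end of the exact `ae`-arc of `S(V)` parallel to a `cd`-arc of
`S(z)`: `q` is a *bad* end).  Then `T w = T V`, or `w` is the two-pair point `af|el`, `l ∈ {c, d}`,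
and the exact `af`-arc of `S(w)` starts at `V` (`Irr.rh4_bad`), with the sign rule.
-/

open Set Filter Topology Metric

noncomputable section

namespace Vale.Agent.P032.Six

variable {U : Fin 6 → Set ℂ} {T : ℂ → Set (Fin 6)}

/-- a colour absent off two circles is absent -/
theorem Irr.not_mem_two (h : Irr U T) {w V p : ℂ} {e : Fin 6}
    (hs : ∀ᶠ x in 𝓝 w, dist x V ≠ 1 → dist x p ≠ 1 → e ∉ Pal U x) : e ∉ T w := by
  intro he
  obtain ⟨x, hTx, hx⟩ := ((h.pure w e he).and_eventually hs.eventually_nhds).exists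
  have hxU : x ∈ U e := h.mem_of_single (by rw [hTx])
  obtain ⟨g, ⟨hgU, hgs⟩, hg⟩ := exists_off (z := V) (h.mx.isOpen e) (subset_closure hxU)
    (Filter.inter_mem hx.eventually_nhds Filter.univ_mem)
  have hO : IsOpen (U e ∩ {y : ℂ | dist y V ≠ 1}) :=
    (h.mx.isOpen e).inter (isOpen_ne_fun (continuous_id.dist continuous_const) continuous_const)
  obtain ⟨g', ⟨⟨hgU', hgV'⟩, hgs'⟩, hg'⟩ := exists_off (z := p) hO (subset_closure ⟨hgU, hg⟩)
    hgs.1
  exact hgs' hgV' hg' (subset_closure hgU')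

/-- `S(w)` has no exact `eg`-half branch at `V`, first case: `a` absent inside `S(V)` near `w` -/
theorem Irr.no_eg_in (h : Irr U T) {V w q : ℂ} {a e g l : Fin 6} {τ : ℝ}
    (hwV : dist w V = 1) (hwq : dist w q = 1) (hne : q ≠ V) (hne2 : q + V ≠ 2 * w)
    (hI : InF U V w a) (hO : OutF U V w e) (hq3 : (T q).ncard ≤ 3) (heq : e ∈ T q)
    (hlq : l ∈ T q) (hTw : T w = {a, e, g, l}) (heg : e ≠ g) (heV : e ∈ T V)
    (hx : ∀ᶠ t : ℝ in 𝓝[>] 0, T (hb w V τ t) = {e, g}) : False := by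
  have hVw : dist V w = 1 := by rw [dist_comm]; exact hwV
  have hew : e ∈ T w := by rw [hTw]; simp
  have hgw : g ∈ T w := by rw [hTw]; simp
  have hsg : sg q w V ≠ 0 := sg_ne hwq (by rw [dist_comm]; exact hwV) hne.symm
    (by rw [add_comm]; exact hne2)
  obtain ⟨σ, hσ, hσ'⟩ : ∃ σ : ℝ, (σ = 1 ∨ σ = -1) ∧ σ * sg q w V < 0 := by
    rcases lt_or_gt_of_ne hsg with h1 | h1
    · exact ⟨1, Or.inl rfl, by simpa using h1⟩
    · exact ⟨-1, Or.inr rfl, by linarith⟩
  have hin := hb_in (z := q) (v := w) (g := V) hVw hσ'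
  -- `g` is carried by the half branch of `S(q)` inside `S(V)`
  have hg : ∀ᶠ t : ℝ in 𝓝[>] 0, g ∈ T (hb q w σ t) := by
    filter_upwards [(tendsto_hb q w σ).eventually (h.nhd w), (tendsto_hb q w σ).eventually hI, hin]
      with t h1 h2 h3
    obtain ⟨i, hi, hiq⟩ := h.not_sub' (x := q) (y := hb q w σ t) (dist_hb hwq σ t) hq3
    have hiw := h1 hi
    rw [hTw] at hiw
    rcases hiw with rfl | rfl | rfl | rfl
    · exact absurd (h.sub _ hi) (h2 h3)
    · exact absurd heq hiq
    · exact hi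
    · exact absurd hlq hiq
  obtain ⟨t1, hc1, ht1⟩ := h.branch_cur hg hin
  -- the point `p`
  have harc := h.arcs_of_exact heg hew hgw hVw hx
  have hd : ∀ᶠ t : ℝ in 𝓝[>] 0, dist (hb w V τ t) (hb q w σ t1) < 1 := by
    have h1 : ∀ᶠ x in 𝓝 V, dist x (hb q w σ t1) < 1 :=
      (continuous_id.dist continuous_const).continuousAt.eventually_lt continuousAt_const (by
        rw [dist_comm] at ht1; exact ht1)
    exact (tendsto_hb w V τ).eventually h1
  obtain ⟨η, hη, hsub⟩ := mem_nhdsGT_iff_exists_Ioo_subset.1 hx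
  obtain ⟨s, ⟨hs1, hs2⟩, hs3⟩ := ((harc.and hd).and (Ioo_mem_nhdsGT hη)).exists
  set p := hb w V τ s with hp
  have hpw : dist p w = 1 := dist_hb hVw τ s
  have hTp : T p = {e, g} := hsub hs3
  have hOg := h.cur_out hc1 hs2
  have hray : Ray (U e) p (p - w) := by
    have h1 : Tendsto (fun r : ℝ => p + r * (p - w)) (𝓝[>] 0) (𝓝 p) := by
      have h2 : Continuous fun r : ℝ => p + r * (p - w) := by fun_prop
      have h3 := h2.tendsto 0
      simp only [Complex.ofReal_zero, zero_mul, add_zero] at h3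
      exact h3.mono_left nhdsWithin_le_nhds
    unfold Ray
    filter_upwards [h1.eventually hOg, h1.eventually (h.nhd p), self_mem_nhdsWithin]
      with r h2 h3 h4
    have h4 : (0 : ℝ) < r := h4
    have h5 : 1 < dist (p + r * (p - w)) w := by
      rw [dist_eq_norm, show p + r * (p - w) - w = ((1 + r : ℝ) : ℂ) * (p - w) by push_cast; ring,
        norm_mul, Complex.norm_real, ← dist_eq_norm p w, hpw, Real.norm_eq_abs,
        abs_of_pos (by linarith)]
      linarith
    refine h.mem_of_single fun i hi => ?_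
    have h6 := h3 hi
    rw [hTp] at h6
    rcases h6 with rfl | rfl
    · rfl
    · exact absurd (h.sub _ hi) (h2 h5)
  have hIp : InF U p w e := h.mx.ray_in hray (by rw [dist_comm]; exact hpw) (by
    have h1 : ip (p - w) (w - p) = -((p - w).re ^ 2 + (p - w).im ^ 2) := by
      unfold ip; simp only [Complex.sub_re, Complex.sub_im]; ring
    rw [h1, ip_sq (by rw [← dist_eq_norm]; exact hpw)]
    norm_num)
  refine h.not_mem_two (V := V) (p := p) ?_ hew
  unfold InF OutF at *
  filter_upwards [hO, hIp] with x h1 h2 h3 h4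
  rcases lt_or_gt_of_ne h3 with h5 | h5
  · rcases lt_or_gt_of_ne h4 with h6 | h6
    · exact h2 h6
    · exact h.mx.swept_hb hs3.1 (h.sub V heV) (fun t ht => h.sub _ (by
        rw [hsub ⟨ht.1, lt_of_le_of_lt ht.2 hs3.2⟩]; simp)) (Or.inl ⟨h5, h6⟩)
  · exact h1 h5

/-- `S(w)` has no exact `eg`-half branch at `V`, second case: `a` absent outside `S(V)` near `w` -/
theorem Irr.no_eg_out (h : Irr U T) {V w q : ℂ} {a e g l : Fin 6} {τ : ℝ}
    (hwV : dist w V = 1) (hwq : dist w q = 1) (hne : q ≠ V) (hne2 : q + V ≠ 2 * w)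
    (hO : OutF U V w a) (hI : InF U V w e) (hq3 : (T q).ncard ≤ 3) (heq : e ∈ T q)
    (hlq : l ∈ T q) (hTw : T w = {a, e, g, l}) (heg : e ≠ g) (heV : e ∈ T V)
    (hx : ∀ᶠ t : ℝ in 𝓝[>] 0, T (hb w V τ t) = {e, g}) : False := by
  have hVw : dist V w = 1 := by rw [dist_comm]; exact hwV
  have hew : e ∈ T w := by rw [hTw]; simp
  have hgw : g ∈ T w := by rw [hTw]; simp
  have hsg : sg q w V ≠ 0 := sg_ne hwq (by rw [dist_comm]; exact hwV) hne.symm
    (by rw [add_comm]; exact hne2)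
  obtain ⟨σ, hσ, hσ'⟩ : ∃ σ : ℝ, (σ = 1 ∨ σ = -1) ∧ 0 < σ * sg q w V := by
    rcases lt_or_gt_of_ne hsg with h1 | h1
    · exact ⟨-1, Or.inr rfl, by linarith⟩
    · exact ⟨1, Or.inl rfl, by simpa using h1⟩
  have hin := hb_out (z := q) (v := w) (g := V) hVw hσ'
  have hg : ∀ᶠ t : ℝ in 𝓝[>] 0, g ∈ T (hb q w σ t) := by
    filter_upwards [(tendsto_hb q w σ).eventually (h.nhd w), (tendsto_hb q w σ).eventually hO, hin]
      with t h1 h2 h3
    obtain ⟨i, hi, hiq⟩ := h.not_sub' (x := q) (y := hb q w σ t) (dist_hb hwq σ t) hq3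
    have hiw := h1 hi
    rw [hTw] at hiw
    rcases hiw with rfl | rfl | rfl | rfl
    · exact absurd (h.sub _ hi) (h2 h3)
    · exact absurd heq hiq
    · exact hi
    · exact absurd hlq hiq
  obtain ⟨t1, hc1, ht1⟩ := h.branch_cur hg hin
  have harc := h.arcs_of_exact heg hew hgw hVw hx
  have hd : ∀ᶠ t : ℝ in 𝓝[>] 0, 1 < dist (hb w V τ t) (hb q w σ t1) := by
    have h1 : ∀ᶠ x in 𝓝 V, 1 < dist x (hb q w σ t1) :=
      continuousAt_const.eventually_lt (continuous_id.dist continuous_const).continuousAt (by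
        rw [dist_comm] at ht1; exact ht1)
    exact (tendsto_hb w V τ).eventually h1
  obtain ⟨η, hη, hsub⟩ := mem_nhdsGT_iff_exists_Ioo_subset.1 hx
  obtain ⟨s, ⟨hs1, hs2⟩, hs3⟩ := ((harc.and hd).and (Ioo_mem_nhdsGT hη)).exists
  set p := hb w V τ s with hp
  have hpw : dist p w = 1 := dist_hb hVw τ s
  have hTp : T p = {e, g} := hsub hs3
  have hIg := h.cur_in hc1 hs2
  have hray : Ray (U e) p (w - p) := by
    have h1 : Tendsto (fun r : ℝ => p + r * (w - p)) (𝓝[>] 0) (𝓝 p) := by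
      have h2 : Continuous fun r : ℝ => p + r * (w - p) := by fun_prop
      have h3 := h2.tendsto 0
      simp only [Complex.ofReal_zero, zero_mul, add_zero] at h3
      exact h3.mono_left nhdsWithin_le_nhds
    have h7 : ∀ᶠ r : ℝ in 𝓝[>] 0, r < 1 := mem_nhdsWithin_of_mem_nhds (Iio_mem_nhds one_pos)
    unfold Ray
    filter_upwards [h1.eventually hIg, h1.eventually (h.nhd p), self_mem_nhdsWithin, h7]
      with r h2 h3 h4 h8
    have h4 : (0 : ℝ) < r := h4
    have h5 : dist (p + r * (w - p)) w < 1 := by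
      rw [dist_eq_norm, show p + r * (w - p) - w = ((1 - r : ℝ) : ℂ) * (p - w) by push_cast; ring,
        norm_mul, Complex.norm_real, ← dist_eq_norm p w, hpw, Real.norm_eq_abs,
        abs_of_pos (by linarith)]
      linarith
    refine h.mem_of_single fun i hi => ?_
    have h6 := h3 hi
    rw [hTp] at h6
    rcases h6 with rfl | rfl
    · rfl
    · exact absurd (h.sub _ hi) (h2 h5)
  have hOp : OutF U p w e := h.mx.ray_out hray (by rw [dist_comm]; exact hpw) (by
    have h1 : ip (w - p) (w - p) = ((p - w).re ^ 2 + (p - w).im ^ 2) := by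
      unfold ip; simp only [Complex.sub_re, Complex.sub_im]; ring
    rw [h1, ip_sq (by rw [← dist_eq_norm]; exact hpw)]
    norm_num)
  refine h.not_mem_two (V := V) (p := p) ?_ hew
  unfold InF OutF at *
  filter_upwards [hI, hOp] with x h1 h2 h3 h4
  rcases lt_or_gt_of_ne h3 with h5 | h5
  · exact h1 h5
  · rcases lt_or_gt_of_ne h4 with h6 | h6
    · exact h.mx.swept_hb hs3.1 (h.sub V heV) (fun t ht => h.sub _ (by
        rw [hsub ⟨ht.1, lt_of_le_of_lt ht.2 hs3.2⟩]; simp)) (Or.inr ⟨h5, h6⟩)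
    · exact h2 h6

/-- **No exact `eg`-half branch.** `V = ae|gg'`, `w ∈ S(V)`, `T w = {a, e, g, l}`, and `w` has a
neighbour `q` off the line `Vw` with at most three colours, `e, l ∈ T q`. -/
theorem Irr.no_eg (h : Irr U T) {V w q : ℂ} {a e g g' l : Fin 6} {τ : ℝ}
    (hV : DPt T V a e g g') (hwV : dist w V = 1) (hwq : dist w q = 1) (hne : q ≠ V)
    (hne2 : q + V ≠ 2 * w) (hq3 : (T q).ncard ≤ 3) (heq : e ∈ T q) (hlq : l ∈ T q)
    (hTw : T w = {a, e, g, l}) (hx : ∀ᶠ t : ℝ in 𝓝[>] 0, T (hb w V τ t) = {e, g}) : False := by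
  have heV : e ∈ T V := by rw [hV.pal]; simp
  rcases h.sides hV hwV with hs | hs
  · obtain ⟨h1, h2⟩ := sd_iff_F.1 hs
    exact h.no_eg_out hwV hwq hne hne2 h1 h2 hq3 heq hlq hTw hV.bc heV hx
  · obtain ⟨h1, h2⟩ := sd_iff_F.1 hs
    exact h.no_eg_in hwV hwq hne hne2 h2 h1 hq3 heq hlq hTw hV.bc heV hx

/-- four named colours and at most four colours -/
theorem eq_four {M : Set (Fin 6)} (hM : M.ncard ≤ 4) {a b c d : Fin 6} (ha : a ∈ M) (hb : b ∈ M)
    (hc : c ∈ M) (hd : d ∈ M) (h1 : a ≠ b) (h2 : a ≠ c) (h3 : a ≠ d) (h4 : b ≠ c) (h5 : b ≠ d)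
    (h6 : c ≠ d) : M = {a, b, c, d} := by
  symm
  refine Set.eq_of_subset_of_ncard_le ?_ ?_ (Set.toFinite _)
  · rintro i (rfl | rfl | rfl | rfl) <;> assumption
  · rw [Set.ncard_insert_of_notMem (by simp [h1, h2, h3]),
      Set.ncard_insert_of_notMem (by simp [h4, h5]), Set.ncard_pair h6]
    exact hM

/-- a fourth colour -/
theorem exists_fourth {M : Set (Fin 6)} (hM : 3 < M.ncard) (a b c : Fin 6) :
    ∃ m ∈ M, m ≠ a ∧ m ≠ b ∧ m ≠ c := by
  by_contra hcon
  push Not at hcon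
  have h1 : M ⊆ {a, b, c} := by
    intro m hm
    by_cases h1 : m = a
    · simp [h1]
    by_cases h2 : m = b
    · simp [h2]
    · simp [hcon m hm h1 h2]
  have h2 := Set.ncard_le_ncard h1 (Set.toFinite _)
  have h3 : ({a, b, c} : Set (Fin 6)).ncard ≤ 3 := by
    refine (Set.ncard_insert_le _ _).trans ?_
    have := Set.ncard_insert_le b ({c} : Set (Fin 6))
    rw [Set.ncard_singleton] at this
    omega
  omega

/-- at a common neighbour `w` of a three-coloured point `q` and `V`: for every `t ∈ T V` there is a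
colour of `T w` outside `T q`, different from `t` -/
theorem Irr.apex_three (h : Irr U T) {q V w : ℂ} (hwq : dist w q = 1) (hwV : dist w V = 1)
    (hne : V ≠ q) (hne2 : V + q ≠ 2 * w) (hq3 : (T q).ncard ≤ 3) {t : Fin 6} (ht : t ∈ T V) :
    ∃ i ∈ T w, i ∉ T q ∧ i ≠ t := by
  obtain ⟨o, ho, hto⟩ := h.apex hwq hwV hne hne2 ht
  have hop := h.lt_sub ho
  by_cases hs : o ⊆ T q
  · have h1 := h.lt_two ho hs
    have h2 := Set.ncard_sdiff hs (Set.toFinite _)
    omega
  · obtain ⟨i, hio, hiq⟩ := Set.not_subset.1 hs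
    exact ⟨i, hop hio, hiq, fun hit => hto (hit ▸ hio)⟩

/-- the geometry of the rhombus -/
theorem rh4_geo {z V q : ℂ} (hVz : dist V z = 1) (hqz : dist q z = 1) (hne2 : q + V ≠ 2 * z) :
    dist (V + q - z) V = 1 ∧ dist (V + q - z) q = 1 ∧ V + q - z ≠ z ∧
      q + V ≠ 2 * (V + q - z) := by
  refine ⟨?_, ?_, ?_, ?_⟩
  · rw [← hqz, dist_eq_norm, dist_eq_norm]; congr 1; ring
  · rw [← hVz, dist_eq_norm, dist_eq_norm]; congr 1; ring
  · intro hcon
    apply hne2
    linear_combination hcon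
  · intro hcon
    apply hne2
    linear_combination -hcon

/-- not antipodal -/
theorem Irr.rh_anti (h : Irr U T) {z V q : ℂ} {a b c d : Fin 6} (hz : DPt T z a b c d)
    (hVz : dist V z = 1) (hqz : dist q z = 1) (ha : a ∈ T V) (hb' : b ∈ T V) (hc : c ∈ T q)
    (hd : d ∈ T q) (hne : q ≠ V) : q + V ≠ 2 * z := by
  intro hcon
  apply h.cr_ne_zero hz hqz hVz ha hb' hc hd hne
  have : q - z = -(V - z) := by linear_combination hcon
  rw [this]
  unfold cr
  simp only [Complex.neg_re, Complex.neg_im]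
  ring

/-- the second exact pair of `w`, at the end `q` -/
theorem Irr.rh4_pair (h : Irr U T) {z w q : ℂ} {e m l' : Fin 6} (hwq : dist w q = 1)
    (hqz : dist q z = 1) (hwz : w ≠ z) (hwz2 : z + w ≠ 2 * q) (hl' : l' ∈ T z)
    (hq : T q = {l', m, e}) (hem : e ≠ m) (hew : e ∈ T w) (hmw : m ∈ T w) :
    ∃ p, Arc T w p {e, m} := by
  obtain ⟨o, ho, hlo⟩ := h.apex (z := w) (y := z) (p := q) (by rw [dist_comm]; exact hwq) hqz
    hwz.symm hwz2 hl'
  have hoq := h.lt_sub ho
  have hsub : o ⊆ {e, m} := by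
    intro j hj
    have h5 := hoq hj
    rw [hq] at h5
    rcases h5 with rfl | rfl | rfl
    · exact absurd hj hlo
    · simp
    · simp
  have hsw : o ⊆ T w := by
    intro j hj
    rcases hsub hj with rfl | rfl
    · exact hew
    · exact hmw
  have h2o := (h.lt_two ho hsw).1
  have hoe : o = {e, m} := Set.eq_of_subset_of_ncard_le hsub (by
    rw [Set.ncard_pair hem]; exact h2o) (Set.toFinite _)
  obtain ⟨q', hq'⟩ := ho.exists
  rw [hoe] at hq'
  exact ⟨q', hq'⟩

/-- the palette of the second point of the rhombus -/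
theorem Irr.rh4_four (h : Irr U T) {V q w : ℂ} {a b c d e f : Fin 6}
    (hnd : [a, b, c, d, e, f].Nodup) (hV : DPt T V a e b f) (hwV : dist w V = 1)
    (hwq : dist w q = 1) (hne : q ≠ V) (hne2 : q + V ≠ 2 * w) (hTq : T q = {c, d, e})
    (hw4 : (T w).ncard ≤ 4) (ha : a ∈ T w) (he : e ∈ T w) :
    T w = T V ∨ ∃ i m, (i = b ∨ i = f) ∧ (m = c ∨ m = d) ∧ T w = {a, e, i, m} := by
  obtain ⟨⟨nab, nac, nad, nae, naf, nbc, nbd, nbe, nbf, ncd, nce, ncf, nde, ndf, nef⟩, -⟩ :=
    nd6 hnd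
  have haV : a ∈ T V := by rw [hV.pal]; simp
  have hq3 : (T q).ncard ≤ 3 := by
    rw [hTq]
    refine (Set.ncard_insert_le _ _).trans ?_
    have := Set.ncard_insert_le d ({e} : Set (Fin 6))
    rw [Set.ncard_singleton] at this
    omega
  obtain ⟨i, hiw, hiq, hia⟩ := h.apex_three hwq hwV hne.symm (by rw [add_comm]; exact hne2) hq3 haV
  have hi : i = b ∨ i = f := by
    rw [hTq] at hiq
    simp only [mem_insert_iff, mem_singleton_iff, not_or] at hiq
    rcases all_six hnd i with rfl | rfl | rfl | rfl | rfl | rfl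
    · exact absurd rfl hia
    · exact Or.inl rfl
    · exact absurd rfl hiq.1
    · exact absurd rfl hiq.2.1
    · exact absurd rfl hiq.2.2
    · exact Or.inr rfl
  by_cases hbf : b ∈ T w ∧ f ∈ T w
  · left
    rw [hV.pal]
    exact eq_four hw4 ha he hbf.1 hbf.2 nae nab naf nbe.symm nef nbf
  right
  -- more than three colours
  have h3 : 3 < (T w).ncard := by
    by_contra hcon
    obtain ⟨p0, hp0⟩ := hV.arc2
    obtain ⟨p, hp, hp1, hp2, -, -⟩ := hp0.exists_off_two (y := w) (y' := w)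
    have hTp : T p = {b, f} := hp.2.self_of_nhdsWithin hp.1
    rcases hi with rfl | rfl
    · refine h.third_notMem (z := V) (v := w) (q := p) (d := f) hwV (by omega) ?_ hp.1
        (h.sub _ (by rw [hTp]; simp)) hp1 hp2
      rw [hV.pal]
      rintro j (rfl | rfl | rfl | rfl)
      · exact Or.inr ha
      · exact Or.inr he
      · exact Or.inr hiw
      · exact Or.inl rfl
    · refine h.third_notMem (z := V) (v := w) (q := p) (d := b) hwV (by omega) ?_ hp.1
        (h.sub _ (by rw [hTp]; simp)) hp1 hp2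
      rw [hV.pal]
      rintro j (rfl | rfl | rfl | rfl)
      · exact Or.inr ha
      · exact Or.inr he
      · exact Or.inl rfl
      · exact Or.inr hiw
  obtain ⟨m, hmw, hma, hme, hmi⟩ := exists_fourth h3 a e i
  have hm : m = c ∨ m = d := by
    rcases all_six hnd m with rfl | rfl | rfl | rfl | rfl | rfl
    · exact absurd rfl hma
    · rcases hi with rfl | rfl
      · exact absurd rfl hmi
      · exact absurd ⟨hmw, hiw⟩ hbf
    · exact Or.inl rfl
    · exact Or.inr rfl
    · exact absurd rfl hme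
    · rcases hi with rfl | rfl
      · exact absurd ⟨hiw, hmw⟩ hbf
      · exact absurd rfl hmi
  have hie : e ≠ i := by
    rcases hi with rfl | rfl
    · exact nbe.symm
    · exact nef
  exact ⟨i, m, hi, hm, eq_four hw4 ha he hiw hmw nae hia.symm hma.symm hie hme.symm hmi.symm⟩

/-- **The bad end at an alpha hub.** -/
theorem Irr.rh4_bad (h : Irr U T) {z V q : ℂ} {a b c d e f : Fin 6} {τ0 : ℝ}
    (hnd : [a, b, c, d, e, f].Nodup) (hz : DPt T z a b c d) (hV : DPt T V a e b f)
    (hVz : dist V z = 1) (hqz : dist q z = 1) (hTq : T q = {c, d, e})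
    (hτ0 : τ0 = 1 ∨ τ0 = -1) (hx0 : ∀ᶠ t : ℝ in 𝓝[>] 0, T (hb z V τ0 t) = {a, b})
    (hw4 : (T (V + q - z)).ncard ≤ 4) (ha : a ∈ T (V + q - z)) (he : e ∈ T (V + q - z)) :
    T (V + q - z) = T V ∨ ∃ l, (l = c ∨ l = d) ∧ DPt T (V + q - z) a f e l ∧
      ∃ τ, Delta4 U T V (V + q - z) a e f b l τ := by
  obtain ⟨⟨nab, nac, nad, nae, naf, nbc, nbd, nbe, nbf, ncd, nce, ncf, nde, ndf, nef⟩, -⟩ :=
    nd6 hnd
  have haV : a ∈ T V := by rw [hV.pal]; simp
  have hbV : b ∈ T V := by rw [hV.pal]; simp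
  have hne : q ≠ V := by
    rintro rfl
    rw [hTq] at haV
    rcases haV with h1 | h1 | h1
    · exact nac h1
    · exact nad h1
    · exact nae h1
  have hanti := h.rh_anti hz hVz hqz haV hbV (by rw [hTq]; simp) (by rw [hTq]; simp) hne
  obtain ⟨hwV, hwq, hwz, hne2⟩ := rh4_geo hVz hqz hanti
  set w := V + q - z with hw
  have hwz2 : w + z ≠ 2 * V := by
    intro hcon
    apply hne
    rw [hw] at hcon
    linear_combination hcon
  have hwz3 : z + w ≠ 2 * q := by
    intro hcon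
    apply hne
    rw [hw] at hcon
    linear_combination -hcon
  have hVw : dist V w = 1 := by rw [dist_comm]; exact hwV
  have hq3 : (T q).ncard ≤ 3 := by
    rw [hTq]
    refine (Set.ncard_insert_le _ _).trans ?_
    have := Set.ncard_insert_le d ({e} : Set (Fin 6))
    rw [Set.ncard_singleton] at this
    omega
  rcases h.rh4_four hnd hV hwV hwq hne hne2 hTq hw4 ha he with h1 | ⟨i, m, hi, hm, hTw⟩
  · exact Or.inl h1
  right
  clear hnd hw4 hw
  have hmq : m ∈ T q := by rw [hTq]; rcases hm with rfl | rfl <;> simp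
  have heq : e ∈ T q := by rw [hTq]; simp
  rcases hi with rfl | rfl
  · -- `i = b`
    exfalso
    obtain ⟨τ, D | D⟩ := h.germ_delta4 hV hwV hTw
    · -- two walls `ab` at `V`
      have hxa : ∀ᶠ t : ℝ in 𝓝[>] 0, a ∈ T (hb w V τ t) := D.exact.mono fun t ht => by
        rw [ht]; simp
      have hxb : ∀ᶠ t : ℝ in 𝓝[>] 0, i ∈ T (hb w V τ t) := D.exact.mono fun t ht => by
        rw [ht]; simp
      have haz : a ∈ T z := by rw [hz.pal]; simp
      have hbz : i ∈ T z := by rw [hz.pal]; simp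
      rcases h.sides hz hVz with hs | hs
      · exact h.wall_unique D.sgn hVz hVw hwz hwz2 haz hbz
          (h.sd_end hz.ab haz hbz hVz hτ0 hx0 hs) hxa hxb
      · exact h.wall_unique D.sgn hVz hVw hwz hwz2 hbz haz
          (h.sd_end hz.ab.symm hbz haz hVz hτ0 (by rwa [Set.pair_comm]) hs) hxb hxa
    · exact h.no_eg hV hwV hwq hne hne2 hq3 heq hmq hTw D.exact
  · -- `i = f`
    have hV' : DPt T V a e i b := hV.swap34
    have hmw : m ∈ T w := by rw [hTw]; simp
    have hiw : i ∈ T w := by rw [hTw]; simp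
    have nem : e ≠ m := by
      rcases hm with rfl | rfl
      · exact nce.symm
      · exact nde.symm
    have nam : a ≠ m := by
      rcases hm with rfl | rfl
      · exact nac
      · exact nad
    have nim : i ≠ m := by
      rcases hm with rfl | rfl
      · exact ncf.symm
      · exact ndf.symm
    obtain ⟨τ, D | D⟩ := h.germ_delta4 hV' hwV hTw
    · refine ⟨m, hm, ?_, τ, D⟩
      obtain ⟨p2, hp2⟩ : ∃ p, Arc T w p {e, m} := by
        rcases hm with rfl | rfl
        · refine h.rh4_pair (l' := d) hwq hqz hwz hwz3 (by rw [hz.pal]; simp) ?_ nem he hmw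
          rw [hTq, Set.insert_comm]
        · exact h.rh4_pair (l' := c) hwq hqz hwz hwz3 (by rw [hz.pal]; simp) hTq nem he hmw
      obtain ⟨s, hs⟩ := (h.arcs_of_exact (a := a) (b := i) naf ha hiw hVw D.exact).exists
      have hpal : T w = {a, i, e, m} := by
        rw [hTw, Set.insert_comm e i]
      exact ⟨hpal, nae, nam, nef.symm, nim, naf, nem, ⟨_, hs⟩, ⟨_, hp2⟩⟩
    · exact absurd (h.no_eg hV' hwV hwq hne hne2 hq3 heq hmq hTw D.exact) id

/-- **Sign rule for bad ends.**  `J` the exact `cd`-arc with the bad end `q`, so that `S(V)` is exact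
`ae` on the half branch `τJ` at `w`: `τJ = τ0` if `a` is inside `S(z)` at `V`, and `τJ = -τ0` if `a`
is outside (`τ0` the half branch of the exact `ab`-arc of `S(z)` at `V`). -/
theorem Irr.rh4_sign (h : Irr U T) {z V q : ℂ} {a b c d e f l : Fin 6} {τ0 τ τJ : ℝ}
    (hz : DPt T z a b c d) (hVz : dist V z = 1) (hqz : dist q z = 1) (hne : q ≠ V)
    (hanti : q + V ≠ 2 * z) (hτ0 : τ0 = 1 ∨ τ0 = -1)
    (hx0 : ∀ᶠ t : ℝ in 𝓝[>] 0, T (hb z V τ0 t) = {a, b}) (ha : a ∈ T (V + q - z))
    (D : Delta4 U T V (V + q - z) a e f b l τ) (hτJ : τJ = 1 ∨ τJ = -1)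
    (hJ : ∀ᶠ t : ℝ in 𝓝[>] 0, a ∈ T (hb V (V + q - z) τJ t)) :
    (Sd U z V a b → τJ = τ0) ∧ (Sd U z V b a → τJ = -τ0) := by
  obtain ⟨hwV, hwq, hwz, hne2⟩ := rh4_geo hVz hqz hanti
  have haz : a ∈ T z := by rw [hz.pal]; simp
  have hbz : b ∈ T z := by rw [hz.pal]; simp
  have hzV : dist z V = 1 := by rw [dist_comm]; exact hVz
  have hs1 : sg z V (V + q - z) = -cr (V - z) (q - z) := by
    unfold sg cr
    simp only [Complex.sub_re, Complex.sub_im, Complex.add_re, Complex.add_im]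
    ring
  have hs2 : sg (V + q - z) V z = cr (V - z) (q - z) := by
    unfold sg cr
    simp only [Complex.sub_re, Complex.sub_im, Complex.add_re, Complex.add_im]
    ring
  have hs0 : cr (V - z) (q - z) ≠ 0 := by
    have := sg_ne (z := z) (v := V) (g := V + q - z) hVz hwV hwz (by
      intro hcon; apply hne; linear_combination hcon)
    rw [hs1] at this
    simpa using this
  set w := V + q - z with hw
  set s := cr (V - z) (q - z) with hs
  have hxa0 : ∀ᶠ t : ℝ in 𝓝[>] 0, a ∈ T (hb z V τ0 t) := hx0.mono fun t ht => by rw [ht]; simp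
  have hxa : ∀ᶠ t : ℝ in 𝓝[>] 0, a ∈ T (hb w V τ t) := D.exact.mono fun t ht => by rw [ht]; simp
  -- the side at `z`
  have k1 : Sd U z V a b → τ * s < 0 := by
    intro h1
    have h2 := (sd_iff_F.1 (h.sd_end hz.ab haz hbz hVz hτ0 hx0 h1)).1
    by_contra hcon
    have h3 : 0 < τ * sg w V z := by
      rw [hs2]
      rcases lt_trichotomy (τ * s) 0 with h4 | h4 | h4
      · exact absurd h4 hcon
      · exfalso
        rcases D.sgn with h5 | h5 <;> rw [h5] at h4 <;> apply hs0 <;> linarith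
      · exact h4
    exact h.not_both_free haz h2 (h.br_in hxa hzV h3)
  have k2 : Sd U z V b a → 0 < τ * s := by
    intro h1
    have h2 := (sd_iff_F.1 (h.sd_end hz.ab.symm hbz haz hVz hτ0 (by rwa [Set.pair_comm]) h1)).2
    by_contra hcon
    have h3 : τ * sg w V z < 0 := by
      rw [hs2]
      rcases lt_trichotomy (τ * s) 0 with h4 | h4 | h4
      · exact h4
      · exfalso
        rcases D.sgn with h5 | h5 <;> rw [h5] at h4 <;> apply hs0 <;> linarith
      · exact absurd h4 hcon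
    exact h.not_both_free haz (h.br_out hxa hzV h3) h2
  -- the side at `w`
  have k3 : τJ = τ ∧ τ0 * s < 0 ∨ τJ = -τ ∧ 0 < τ0 * s := by
    rcases D.side with ⟨h1, h2⟩ | ⟨h1, h2⟩
    · left
      constructor
      · rcases hτJ with h3 | h3 <;> rcases D.sgn with h4 | h4
        · rw [h3, h4]
        · exfalso
          rw [h4, neg_neg] at h2
          rw [h3] at hJ
          obtain ⟨t, h5, h6⟩ := (hJ.and h2).exists
          exact h6.2 (h.sub _ h5)
        · exfalso
          rw [h4] at h2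
          rw [h3] at hJ
          obtain ⟨t, h5, h6⟩ := (hJ.and h2).exists
          exact h6.2 (h.sub _ h5)
        · rw [h3, h4]
      · by_contra hcon
        have h3 : τ0 * sg z V w < 0 := by
          rw [hs1]
          rcases lt_trichotomy (τ0 * s) 0 with h4 | h4 | h4
          · exact absurd h4 hcon
          · exfalso
            rcases hτ0 with h5 | h5 <;> rw [h5] at h4 <;> apply hs0 <;> linarith
          · linarith
        exact h.not_both_free ha (h.br_out hxa0 hwV h3) (sd_iff_F.1 h1).2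
    · right
      constructor
      · rcases hτJ with h3 | h3 <;> rcases D.sgn with h4 | h4
        · exfalso
          rw [h4] at h2
          rw [h3] at hJ
          obtain ⟨t, h5, h6⟩ := (hJ.and h2).exists
          exact h6.2 (h.sub _ h5)
        · rw [h3, h4, neg_neg]
        · rw [h3, h4]
        · exfalso
          rw [h4] at h2
          rw [h3] at hJ
          obtain ⟨t, h5, h6⟩ := (hJ.and h2).exists
          exact h6.2 (h.sub _ h5)
      · by_contra hcon
        have h3 : 0 < τ0 * sg z V w := by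
          rw [hs1]
          rcases lt_trichotomy (τ0 * s) 0 with h4 | h4 | h4
          · linarith
          · exfalso
            rcases hτ0 with h5 | h5 <;> rw [h5] at h4 <;> apply hs0 <;> linarith
          · exact absurd h4 hcon
        exact h.not_both_free ha (sd_iff_F.1 h1).1 (h.br_in hxa0 hwV h3)
  have k4 : ∀ x y : ℝ, (x = 1 ∨ x = -1) → (y = 1 ∨ y = -1) → x * s < 0 → y * s < 0 → x = y := by
    rintro x y (rfl | rfl) (rfl | rfl) h1 h2 <;> first | rfl | (exfalso; linarith)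
  have k5 : ∀ x y : ℝ, (x = 1 ∨ x = -1) → (y = 1 ∨ y = -1) → x * s < 0 → 0 < y * s → x = -y := by
    rintro x y (rfl | rfl) (rfl | rfl) h1 h2 <;>
      first | (exfalso; linarith) | norm_num
  have k6 : ∀ x y : ℝ, (x = 1 ∨ x = -1) → (y = 1 ∨ y = -1) → 0 < x * s → 0 < y * s → x = y := by
    rintro x y (rfl | rfl) (rfl | rfl) h1 h2 <;> first | rfl | (exfalso; linarith)
  constructor
  · intro h1
    have h2 := k1 h1
    rcases k3 with ⟨h3, h4⟩ | ⟨h3, h4⟩
    · rw [h3]; exact k4 _ _ D.sgn hτ0 h2 h4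
    · rw [h3, k5 _ _ D.sgn hτ0 h2 h4, neg_neg]
  · intro h1
    have h2 := k2 h1
    rcases k3 with ⟨h3, h4⟩ | ⟨h3, h4⟩
    · rw [h3, k5 _ _ hτ0 D.sgn h4 h2, neg_neg]
    · rw [h3, k6 _ _ D.sgn hτ0 h2 h4]

/-- **Transfer of a half branch.**  An exact `cd`-half branch of `S(z)` at `q`, `V ∈ S(z)` a two-pair
point `ae|bf` (no common colour with `cd`): the parallel half branch of `S(V)` is exact. -/
theorem Irr.rh4_transfer (h : Irr U T) {z V q : ℂ} {a b c d e f : Fin 6} {τJ : ℝ}
    (hnd : [a, b, c, d, e, f].Nodup) (hc : c ∈ T z) (hd : d ∈ T z) (hV : DPt T V a e b f)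
    (hVz : dist V z = 1) (hqz : dist q z = 1) (hanti : q + V ≠ 2 * z)
    (hτJ : τJ = 1 ∨ τJ = -1) (hJ : ∀ᶠ t : ℝ in 𝓝[>] 0, T (hb z q τJ t) = {c, d}) :
    (∀ᶠ t : ℝ in 𝓝[>] 0, T (hb V (V + q - z) τJ t) = {a, e}) ∨
      ∀ᶠ t : ℝ in 𝓝[>] 0, T (hb V (V + q - z) τJ t) = {b, f} := by
  obtain ⟨⟨nab, nac, nad, nae, naf, nbc, nbd, nbe, nbf, ncd, nce, ncf, nde, ndf, nef⟩, -⟩ :=
    nd6 hnd
  obtain ⟨hwV, hwq, hwz, hne2⟩ := rh4_geo hVz hqz hanti
  have hpar : ∀ t : ℝ, hb V (V + q - z) τJ t = V + hb z q τJ t - z := by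
    intro t; unfold hb; ring
  have hsub : ∀ᶠ t : ℝ in 𝓝[>] 0, T (hb V (V + q - z) τJ t) ⊆ T V := by
    have h1 : ∀ᶠ t : ℝ in 𝓝[>] 0, hb z q τJ t + V ≠ 2 * z := by
      have h2 : ∀ᶠ x in 𝓝 q, x + V ≠ 2 * z :=
        (isOpen_ne_fun (continuous_id.add continuous_const) continuous_const).mem_nhds hanti
      exact (tendsto_hb z q τJ).eventually h2
    filter_upwards [hJ, h1] with t ht1 ht2
    set x := hb z q τJ t with hx
    have hxz : dist x z = 1 := dist_hb hqz τJ t
    rw [hpar, ← hx]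
    have hxy : dist x (V + x - z) = 1 := by
      rw [← hVz, dist_eq_norm, dist_eq_norm, ← norm_neg]; congr 1; ring
    have hxV : x ≠ V := by
      intro hcon
      rw [hcon, hV.pal] at ht1
      have : a ∈ ({c, d} : Set (Fin 6)) := by rw [← ht1]; simp
      rcases this with h3 | h3
      · exact nac h3
      · exact nad h3
    have k1 : V + x - z ≠ z := by
      intro hcon; apply ht2; linear_combination hcon
    have k2 : V + x - z + z ≠ 2 * x := by
      intro hcon; apply hxV; linear_combination -hcon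
    have hcd : ∀ i, (i = c ∨ i = d) → i ∉ T (V + x - z) := by
      intro i hi hiy
      have hTx : T x ⊆ {c, d} := by rw [ht1]
      have hTx' : T x ⊆ {d, c} := by rw [ht1, Set.pair_comm]
      rcases hi with rfl | rfl
      · rcases h.lemmaB hTx' hxz hxy (h.sub _ hd) (h.sub _ hiy) with h4 | h4
        · exact k1 h4
        · exact k2 h4
      · rcases h.lemmaB hTx hxz hxy (h.sub _ hc) (h.sub _ hiy) with h4 | h4
        · exact k1 h4
        · exact k2 h4
    intro i hi
    rw [hV.pal]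
    rcases all_six hnd i with rfl | rfl | rfl | rfl | rfl | rfl
    · simp
    · simp
    · exact absurd hi (hcd _ (Or.inl rfl))
    · exact absurd hi (hcd _ (Or.inr rfl))
    · simp
    · simp
  rcases h.half_zone hV hwV hτJ with h1 | h1
  · right
    exact h.half_exact hV.swap hwV hτJ hsub h1
  · left
    exact h.half_exact hV hwV hτJ hsub h1

/-- **Ends of complementary arcs at an alpha hub.**  `z = ab|cd`, an exact `ab`-half branch of `S(z)`
ends at `V = ae|bf`; `q ∈ S(z)`, `T q = {c, d, e}`, an exact `cd`-half branch `τJ` of `S(z)` at `q`.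
The parallel half branch of `S(V)` at `w = V + q - z` is exact `bf`, or it is exact `ae` and then
(bad end) `T w = T V`, or `w` is the two-pair point `af|el` with an exact `af`-half branch at `V`, and
the sign rule holds. -/
theorem Irr.rh4_end (h : Irr U T) {z V q : ℂ} {a b c d e f : Fin 6} {τ0 τJ : ℝ}
    (hnd : [a, b, c, d, e, f].Nodup) (hz : DPt T z a b c d) (hV : DPt T V a e b f)
    (hVz : dist V z = 1) (hqz : dist q z = 1) (hTq : T q = {c, d, e})
    (hτ0 : τ0 = 1 ∨ τ0 = -1) (hx0 : ∀ᶠ t : ℝ in 𝓝[>] 0, T (hb z V τ0 t) = {a, b})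
    (hτJ : τJ = 1 ∨ τJ = -1) (hJ : ∀ᶠ t : ℝ in 𝓝[>] 0, T (hb z q τJ t) = {c, d})
    (hw4 : (T (V + q - z)).ncard ≤ 4) :
    (∀ᶠ t : ℝ in 𝓝[>] 0, T (hb V (V + q - z) τJ t) = {b, f}) ∨
      ((∀ᶠ t : ℝ in 𝓝[>] 0, T (hb V (V + q - z) τJ t) = {a, e}) ∧
        (T (V + q - z) = T V ∨
          ((∃ l, (l = c ∨ l = d) ∧ DPt T (V + q - z) a f e l ∧
            ∃ τ, Delta4 U T V (V + q - z) a e f b l τ) ∧
          (Sd U z V a b → τJ = τ0) ∧ (Sd U z V b a → τJ = -τ0)))) := by
  have haV : a ∈ T V := by rw [hV.pal]; simp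
  have hbV : b ∈ T V := by rw [hV.pal]; simp
  obtain ⟨⟨nab, nac, nad, nae, naf, nbc, nbd, nbe, nbf, ncd, nce, ncf, nde, ndf, nef⟩, -⟩ :=
    nd6 hnd
  have hne : q ≠ V := by
    rintro rfl
    rw [hTq] at haV
    rcases haV with h1 | h1 | h1
    · exact nac h1
    · exact nad h1
    · exact nae h1
  have hanti := h.rh_anti hz hVz hqz haV hbV (by rw [hTq]; simp) (by rw [hTq]; simp) hne
  obtain ⟨hwV, hwq, hwz, hne2⟩ := rh4_geo hVz hqz hanti
  rcases h.rh4_transfer hnd (by rw [hz.pal]; simp) (by rw [hz.pal]; simp) hV hVz hqz hanti hτJ hJ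
    with h1 | h1
  · right
    -- `w` is a limit of points with palette `ae`
    have hmem : ∀ i, (i = a ∨ i = e) → i ∈ T (V + q - z) := by
      intro i hi
      by_contra hcon
      have h2 : ∀ᶠ x in 𝓝 (V + q - z), i ∉ T x := (h.nhd (V + q - z)).mono fun x hx hix =>
        hcon (hx hix)
      obtain ⟨t, h3, h4⟩ := (h1.and ((tendsto_hb V (V + q - z) τJ).eventually h2)).exists
      apply h4
      rw [h3]
      rcases hi with rfl | rfl <;> simp
    have ha := hmem a (Or.inl rfl)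
    have he := hmem e (Or.inr rfl)
    refine ⟨h1, ?_⟩
    rcases h.rh4_bad hnd hz hV hVz hqz hTq hτ0 hx0 hw4 ha he with h2 | ⟨l, hl, hD, τ, D⟩
    · exact Or.inl h2
    · right
      refine ⟨⟨l, hl, hD, τ, D⟩, ?_⟩
      exact h.rh4_sign hz hVz hqz hne hanti hτ0 hx0 ha D hτJ (h1.mono fun t ht => by
        rw [ht]; simp)
  · exact Or.inl h1

end Vale.Agent.P032.Six
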