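import Vale.Agent.P032.H249.HubE
import Vale.Agent.P032.H249.Rh4
import Vale.Agent.P032.H684.Penta

/-!
# P032: clean events `{l, m} | {m, r}` of a centre with at least five colours

`q ∈ S(z)`, `T q ⊆ {l, m, r}`, near `q` the colour `m` is only on one side of `S(z)` and `l`, `r` only
on the other one (`Wed U z q l m r`).  Then every other circle through `q` misses `m` (its centre does
not have the colour `m`, `Irr.five_miss`), and if `l, r ∈ T w`, then `S(w)` is exact `lr` on a half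
branch at `q` (`Irr.five_exact`), and `w` is the only such centre (`Irr.five_unique`, no assumption on
the palettes of the centres).  **Rhombus cap** (`Irr.five_cap`): at most one `v ∈ S(z)`, not antipodal
to `q`, has the palette complementary to `T q`.  Instances for `Full5` points: `Full5.wed`,
`Full5.anti`, `Full5.cap`.
-/

open Set Filter Topology Metric

noncomputable section

namespace Vale.Agent.P032.Six

section general
variable {k : ℕ} {U : Fin k → Set ℂ} {T : ℂ → Set (Fin k)}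

/-- near `q` the colour `m` is on one side of `S(z)`, the colours `l`, `r` on the other side -/
def Wed (U : Fin k → Set ℂ) (z q : ℂ) (l m r : Fin k) : Prop :=
  (Sd U z q m l ∧ Sd U z q m r) ∨ (Sd U z q l m ∧ Sd U z q r m)

theorem Wed.swap {z q : ℂ} {l m r : Fin k} (hs : Wed U z q l m r) : Wed U z q r m l :=
  hs.imp And.symm And.symm

/-- the two sides near `q` -/
theorem Irr.five_near (h : Irr U T) {z q : ℂ} {l m r : Fin k} (hT : T q ⊆ {l, m, r})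
    (hs : Wed U z q l m r) :
    ((∀ᶠ x in 𝓝 q, dist x z < 1 → T x ⊆ {m}) ∧ ∀ᶠ x in 𝓝 q, 1 < dist x z → T x ⊆ {l, r}) ∨
    ((∀ᶠ x in 𝓝 q, 1 < dist x z → T x ⊆ {m}) ∧ ∀ᶠ x in 𝓝 q, dist x z < 1 → T x ⊆ {l, r}) := by
  rcases hs with ⟨h1, h2⟩ | ⟨h1, h2⟩
  · left
    constructor
    · filter_upwards [h1, h2, h.nhd q] with x k1 k2 k3 k4 i hi
      rcases hT (k3 hi) with rfl | rfl | rfl
      · exact absurd (h.sub _ hi) (k1.2 k4)
      · rfl
      · exact absurd (h.sub _ hi) (k2.2 k4)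
    · filter_upwards [h1, h2, h.nhd q] with x k1 k2 k3 k4 i hi
      rcases hT (k3 hi) with rfl | rfl | rfl
      · simp
      · exact absurd (h.sub _ hi) (k1.1 k4)
      · simp
  · right
    constructor
    · filter_upwards [h1, h2, h.nhd q] with x k1 k2 k3 k4 i hi
      rcases hT (k3 hi) with rfl | rfl | rfl
      · exact absurd (h.sub _ hi) (k1.1 k4)
      · rfl
      · exact absurd (h.sub _ hi) (k2.1 k4)
    · filter_upwards [h1, h2, h.nhd q] with x k1 k2 k3 k4 i hi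
      rcases hT (k3 hi) with rfl | rfl | rfl
      · simp
      · exact absurd (h.sub _ hi) (k1.2 k4)
      · simp

/-- the circle `S(w)` through `q` has points near `q` on both sides of `S(z)` -/
theorem hb_two {z q w : ℂ} (hqz : dist q z = 1) (hqw : dist q w = 1) (hwz : w ≠ z)
    (hwz2 : w + z ≠ 2 * q) : ∃ τ : ℝ, (τ = 1 ∨ τ = -1) ∧ τ * sg w q z < 0 ∧
      (∀ᶠ t : ℝ in 𝓝[>] 0, dist (hb w q τ t) z < 1) ∧
      ∀ᶠ t : ℝ in 𝓝[>] 0, 1 < dist (hb w q (-τ) t) z := by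
  have hzq : dist z q = 1 := by rw [dist_comm]; exact hqz
  have hsg : sg w q z ≠ 0 := sg_ne hqw hzq hwz.symm (by rw [add_comm]; exact hwz2)
  obtain ⟨τ, hτ, hs⟩ := (exists_sign hsg).1
  exact ⟨τ, hτ, hs, hb_in hzq hs, hb_out hzq (by linarith)⟩

/-- **No other centre on `S(q)` has the middle colour.** -/
theorem Irr.five_miss (h : Irr U T) {z q w : ℂ} {l m r : Fin k} (hT : T q ⊆ {l, m, r})
    (hs : Wed U z q l m r) (hqz : dist q z = 1) (hqw : dist q w = 1) (hwz : w ≠ z)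
    (hwz2 : w + z ≠ 2 * q) : m ∉ T w := by
  intro hm
  obtain ⟨τ, -, -, h1, h2⟩ := hb_two hqz hqw hwz hwz2
  rcases h.five_near hT hs with ⟨k1, -⟩ | ⟨k1, -⟩
  · obtain ⟨t, ht, ht'⟩ := (h1.and ((tendsto_hb w q τ).eventually k1)).exists
    exact h.not_single (z := w) (i := m) (h.sub _ hm) (dist_hb hqw _ t) (ht' ht)
  · obtain ⟨t, ht, ht'⟩ := (h2.and ((tendsto_hb w q (-τ)).eventually k1)).exists
    exact h.not_single (z := w) (i := m) (h.sub _ hm) (dist_hb hqw _ t) (ht' ht)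

/-- **Exact half branch in the colours `l`, `r`.** -/
theorem Irr.five_exact (h : Irr U T) {z q w : ℂ} {l m r : Fin k} (hT : T q ⊆ {l, m, r})
    (hs : Wed U z q l m r) (hqz : dist q z = 1) (hqw : dist q w = 1) (hwz : w ≠ z)
    (hwz2 : w + z ≠ 2 * q) (hl : l ∈ T w) (hr : r ∈ T w) :
    ∃ τ : ℝ, (τ = 1 ∨ τ = -1) ∧ ∀ᶠ t : ℝ in 𝓝[>] 0, T (hb w q τ t) = {l, r} := by
  obtain ⟨τ, hτ, -, h1, h2⟩ := hb_two hqz hqw hwz hwz2
  rcases h.five_near hT hs with ⟨-, k1⟩ | ⟨-, k1⟩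
  · refine ⟨-τ, by rcases hτ with rfl | rfl <;> simp, ?_⟩
    filter_upwards [h2, (tendsto_hb w q (-τ)).eventually k1] with t ht ht'
    exact h.pair_of_sub (dist_hb hqw _ t) (h.sub _ hl) (h.sub _ hr) (ht' ht)
  · refine ⟨τ, hτ, ?_⟩
    filter_upwards [h1, (tendsto_hb w q τ).eventually k1] with t ht ht'
    exact h.pair_of_sub (dist_hb hqw _ t) (h.sub _ hl) (h.sub _ hr) (ht' ht)

/-- the circle tangent from outside -/
theorem hb_tangent {w w' q : ℂ} (hqw : dist q w = 1) (ht : w' + w = 2 * q) {τ : ℝ}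
    (hτ : τ = 1 ∨ τ = -1) : ∀ᶠ t : ℝ in 𝓝[>] 0, 1 < dist (hb w q τ t) w' := by
  filter_upwards [Ioo_mem_nhdsGT (show (0 : ℝ) < 1 by norm_num)] with t ht1
  have h1 : hb w q τ t - w' = (q - w) * (cis (τ * t) - 2) := by
    unfold hb; linear_combination -ht
  have h2 : ‖q - w‖ = 1 := by rw [← dist_eq_norm]; exact hqw
  rw [dist_eq_norm, h1, norm_mul, h2, one_mul]
  have hsin : 0 < Real.sin t :=
    Real.sin_pos_of_pos_of_lt_pi ht1.1 (by linarith [ht1.2, Real.pi_gt_three])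
  have hcos : Real.cos (τ * t) = Real.cos t := by
    rcases hτ with rfl | rfl
    · rw [one_mul]
    · rw [neg_one_mul, Real.cos_neg]
  have hc1 : Real.cos t < 1 := by nlinarith [Real.sin_sq_add_cos_sq t, Real.cos_le_one t]
  have h3 : Complex.normSq (cis (τ * t) - 2) = 5 - 4 * Real.cos t := by
    rw [Complex.normSq_apply]
    have e1 : (cis (τ * t) - 2).re = Real.cos t - 2 := by
      rw [Complex.sub_re, cis_re, hcos]; simp
    have e2 : (cis (τ * t) - 2).im = Real.sin (τ * t) := by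
      rw [Complex.sub_im, cis_im]; simp
    rw [e1, e2]
    have := Real.sin_sq_add_cos_sq (τ * t)
    rw [hcos] at this
    nlinarith
  have h4 : 1 < ‖cis (τ * t) - 2‖ ^ 2 := by
    rw [← Complex.normSq_eq_norm_sq, h3]; linarith
  have h5 : 0 ≤ ‖cis (τ * t) - 2‖ := norm_nonneg _
  nlinarith

/-- a half branch of one colour on one side of the tangent -/
theorem Irr.tan_in (h : Irr U T) {w w' q : ℂ} {x : Fin k} {τ : ℝ} (hqw : dist q w = 1)
    (ht : w' + w = 2 * q) (hτ : τ = 1 ∨ τ = -1)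
    (hx : ∀ᶠ t : ℝ in 𝓝[>] 0, x ∈ T (hb w q τ t)) : InF U q w' x := by
  obtain ⟨t0, hc, hlt⟩ := h.branch_cur hx (hb_tangent hqw ht hτ)
  exact h.cur_in hc (by rw [dist_comm]; exact hlt)

/-- two colours on a half branch of `S(w₂)` at `q` are absent on one side of `S(q)` at `w₁` -/
theorem Irr.pair_side (h : Irr U T) {w₁ w₂ q : ℂ} {l r : Fin k} {τ : ℝ} (h1 : dist q w₁ = 1)
    (h2 : dist q w₂ = 1) (hne : w₁ ≠ w₂) (hτ : τ = 1 ∨ τ = -1)
    (hx : ∀ᶠ t : ℝ in 𝓝[>] 0, T (hb w₂ q τ t) = {l, r}) :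
    (OutF U q w₁ l ∧ OutF U q w₁ r) ∨ (InF U q w₁ l ∧ InF U q w₁ r) := by
  have hxl : ∀ᶠ t : ℝ in 𝓝[>] 0, l ∈ T (hb w₂ q τ t) := by
    filter_upwards [hx] with t ht; rw [ht]; simp
  have hxr : ∀ᶠ t : ℝ in 𝓝[>] 0, r ∈ T (hb w₂ q τ t) := by
    filter_upwards [hx] with t ht; rw [ht]; simp
  have hw1 : dist w₁ q = 1 := by rw [dist_comm]; exact h1
  by_cases htan : w₁ + w₂ = 2 * q
  · exact Or.inr ⟨h.tan_in h2 htan hτ hxl, h.tan_in h2 htan hτ hxr⟩
  · have hsg : sg w₂ q w₁ ≠ 0 := sg_ne h2 hw1 hne htan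
    rcases lt_or_gt_of_ne (show τ * sg w₂ q w₁ ≠ 0 by
      rcases hτ with rfl | rfl <;> simpa using hsg) with h3 | h3
    · exact Or.inl ⟨h.br_out hxl hw1 h3, h.br_out hxr hw1 h3⟩
    · exact Or.inr ⟨h.br_in hxl hw1 h3, h.br_in hxr hw1 h3⟩

/-- **Uniqueness of the owner of the third wall.** -/
theorem Irr.five_unique (h : Irr U T) {z q w₁ w₂ : ℂ} {l m r : Fin k} {τ : ℝ}
    (hT : T q ⊆ {l, m, r}) (hs : Wed U z q l m r) (hqz : dist q z = 1)
    (hτ : τ = 1 ∨ τ = -1) (hx1 : ∀ᶠ t : ℝ in 𝓝[>] 0, l ∈ T (hb z q τ t))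
    (hx2 : ∀ᶠ t : ℝ in 𝓝[>] 0, r ∈ T (hb z q (-τ) t)) (h1 : dist q w₁ = 1) (h2 : dist q w₂ = 1)
    (h1z : w₁ ≠ z) (h1z2 : w₁ + z ≠ 2 * q) (h2z : w₂ ≠ z) (h2z2 : w₂ + z ≠ 2 * q)
    (hl1 : l ∈ T w₁) (hr1 : r ∈ T w₁) (hl2 : l ∈ T w₂) (hr2 : r ∈ T w₂) : w₁ = w₂ := by
  by_contra hne
  have hw1 : dist w₁ q = 1 := by rw [dist_comm]; exact h1
  obtain ⟨κ, hκ, hex⟩ := h.five_exact hT hs hqz h2 h2z h2z2 hl2 hr2
  have k1 := h.pair_side h1 h2 hne hκ hex
  have hsg : sg z q w₁ ≠ 0 := sg_ne hqz hw1 h1z h1z2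
  have k2 : (OutF U q w₁ l ∧ InF U q w₁ r) ∨ (InF U q w₁ l ∧ OutF U q w₁ r) := by
    rcases lt_or_gt_of_ne (show τ * sg z q w₁ ≠ 0 by
      rcases hτ with rfl | rfl <;> simpa using hsg) with h3 | h3
    · exact Or.inl ⟨h.br_out hx1 hw1 h3, h.br_in hx2 hw1 (by linarith)⟩
    · exact Or.inr ⟨h.br_in hx1 hw1 h3, h.br_out hx2 hw1 (by linarith)⟩
  rcases k1 with ⟨a1, a2⟩ | ⟨a1, a2⟩ <;> rcases k2 with ⟨b1, b2⟩ | ⟨b1, b2⟩
  · exact h.not_both_free hr1 a2 b2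
  · exact h.not_both_free hl1 a1 b1
  · exact h.not_both_free hl1 b1 a1
  · exact h.not_both_free hr1 b2 a2

end general

variable {U : Fin 6 → Set ℂ} {T : ℂ → Set (Fin 6)}

/-- **The rhombus at a clean event**: `T v` complementary to `T q`. -/
theorem Irr.five_rhombus (h : Irr U T) {z q v : ℂ} {l m r : Fin 6} (hT : T q = {l, m, r})
    (hs : Wed U z q l m r) (hqz : dist q z = 1) (hvz : dist v z = 1) (hTv : T v = (T q)ᶜ)
    (hv3 : (T v).ncard ≤ 3) (hanti : q + v ≠ 2 * z) :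
    l ∈ T (v + q - z) ∧ r ∈ T (v + q - z) ∧ m ∉ T (v + q - z) ∧
      (∀ t ∈ T v, ∃ i ∈ T (v + q - z), i ∈ T v ∧ i ≠ t) ∧
      ∃ τ : ℝ, (τ = 1 ∨ τ = -1) ∧ ∀ᶠ t : ℝ in 𝓝[>] 0, T (hb (v + q - z) q τ t) = {l, r} := by
  obtain ⟨hwv, hwq, hwz, hq2⟩ := rh4_geo hvz hqz hanti
  have hvq : v ≠ q := by
    rintro rfl
    have h1 : l ∈ T v := by rw [hT]; simp
    have h2 : l ∈ (T v)ᶜ := by rw [← hTv]; exact h1
    exact h2 h1
  have hwz2 : (v + q - z) + z ≠ 2 * q := by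
    intro hcon; apply hvq; linear_combination hcon
  have hmw : m ∉ T (v + q - z) :=
    h.five_miss hT.subset hs hqz (by rw [dist_comm]; exact hwq) hwz hwz2
  have key : ∀ t ∈ T q, ∃ i ∈ T (v + q - z), i ∈ T q ∧ i ≠ t := by
    intro t ht
    obtain ⟨i, h1, h2, h3⟩ := h.apex_three hwv hwq hvq.symm hq2 hv3 ht
    refine ⟨i, h1, ?_, h3⟩
    rw [hTv] at h2
    exact not_not.1 h2
  have hl : l ∈ T (v + q - z) := by
    obtain ⟨i, h1, h2, h3⟩ := key r (by rw [hT]; simp)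
    rw [hT] at h2
    rcases h2 with rfl | rfl | rfl
    · exact h1
    · exact absurd h1 hmw
    · exact absurd rfl h3
  have hr : r ∈ T (v + q - z) := by
    obtain ⟨i, h1, h2, h3⟩ := key l (by rw [hT]; simp)
    rw [hT] at h2
    rcases h2 with rfl | rfl | rfl
    · exact absurd rfl h3
    · exact absurd h1 hmw
    · exact h1
  refine ⟨hl, hr, hmw, fun t ht => ?_, ?_⟩
  · obtain ⟨i, h1, h2, h3⟩ := h.apex_three hwq hwv hvq
      (fun hcon => hq2 (by linear_combination hcon)) (card3_le hT) ht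
    exact ⟨i, h1, by rw [hTv]; exact h2, h3⟩
  · exact h.five_exact hT.subset hs hqz (by rw [dist_comm]; exact hwq) hwz hwz2 hl hr

/-- **Rhombus cap.** -/
theorem Irr.five_cap (h : Irr U T) {z q v₁ v₂ : ℂ} {l m r : Fin 6} {τ : ℝ} (hT : T q = {l, m, r})
    (hs : Wed U z q l m r) (hqz : dist q z = 1) (hτ : τ = 1 ∨ τ = -1)
    (hx1 : ∀ᶠ t : ℝ in 𝓝[>] 0, l ∈ T (hb z q τ t))
    (hx2 : ∀ᶠ t : ℝ in 𝓝[>] 0, r ∈ T (hb z q (-τ) t))
    (h1z : dist v₁ z = 1) (hT1 : T v₁ = (T q)ᶜ) (ha1 : q + v₁ ≠ 2 * z)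
    (h2z : dist v₂ z = 1) (hT2 : T v₂ = (T q)ᶜ) (ha2 : q + v₂ ≠ 2 * z)
    (h3 : ((T q)ᶜ).ncard ≤ 3) : v₁ = v₂ := by
  obtain ⟨hl1, hr1, -⟩ := h.five_rhombus hT hs hqz h1z hT1 (by rw [hT1]; exact h3) ha1
  obtain ⟨hl2, hr2, -⟩ := h.five_rhombus hT hs hqz h2z hT2 (by rw [hT2]; exact h3) ha2
  obtain ⟨-, hwq1, hwz1, -⟩ := rh4_geo h1z hqz ha1
  obtain ⟨-, hwq2, hwz2, -⟩ := rh4_geo h2z hqz ha2
  have hne : ∀ v, T v = (T q)ᶜ → (v + q - z) + z ≠ 2 * q := by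
    intro v hTv hcon
    have hvq : v = q := by linear_combination hcon
    subst hvq
    have h5 : l ∈ T v := by rw [hT]; simp
    have h6 : l ∈ (T v)ᶜ := by rw [← hTv]; exact h5
    exact h6 h5
  have := h.five_unique hT.subset hs hqz hτ hx1 hx2 (by rw [dist_comm]; exact hwq1)
    (by rw [dist_comm]; exact hwq2) hwz1 (hne v₁ hT1) hwz2 (hne v₂ hT2) hl1 hr1 hl2 hr2
  linear_combination this

/-! ### five-coloured points with all diagonals broken -/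

theorem ip_rot {n : ℂ} (hn : ‖n‖ = 1) (s t : ℝ) :
    ip (Complex.I * (n * cis s)) (-(n * cis t)) = Real.sin (s - t) := by
  have h1 := ip_sq hn
  unfold ip
  simp only [Complex.mul_re, Complex.mul_im, Complex.I_re, Complex.I_im, Complex.neg_re,
    Complex.neg_im, cis_re, cis_im]
  rw [Real.sin_sub]
  have e : (0 * (n.re * Real.cos s - n.im * Real.sin s) -
        1 * (n.re * Real.sin s + n.im * Real.cos s)) * -(n.re * Real.cos t - n.im * Real.sin t) +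
      (0 * (n.re * Real.sin s + n.im * Real.cos s) +
        1 * (n.re * Real.cos s - n.im * Real.sin s)) * -(n.re * Real.sin t + n.im * Real.cos t) =
      (n.re ^ 2 + n.im ^ 2) * (Real.sin s * Real.cos t - Real.cos s * Real.sin t) := by ring
  rw [e, h1, one_mul]

theorem circle_pt {z g : ℂ} (hg : dist g z = 1) (t : ℝ) : dist (z + (g - z) * cis t) z = 1 := by
  have h1 : ‖g - z‖ = 1 := by rw [← dist_eq_norm]; exact hg
  rw [dist_eq_norm, add_sub_cancel_left, norm_mul, h1, norm_cis, one_mul]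

/-- **opposite to an exact arc of the pair the isolated colour is absent** -/
theorem IsoC.anti {a b c : Fin 6} {Y : Set (Fin 6)} {z : ℂ} (C : IsoC T z a b c Y) (h : Irr U T)
    (hmin : ∀ z, 4 ≤ (T z).ncard → ∀ s, s ⊆ T z → s ≠ T z →
      ¬ ∀ᶠ w in 𝓝 z, ∃ i ∈ s, w ∈ U i ∨ (w ∈ XX U ∧ i ∈ Pal U w)) {g : ℂ}
    (hg : dist g z = 1) (hT : ∀ᶠ p in 𝓝[sphere z 1] g, T p = {a, b})
    (hc : ∀ᶠ p in 𝓝[sphere z 1] (2 * z - g), c ∈ T p) : False := by
  have hg' : dist (2 * z - g) z = 1 := by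
    rw [← hg, dist_eq_norm, dist_eq_norm, ← norm_neg (g - z)]; congr 1; ring
  have hn : ‖g - z‖ = 1 := by rw [← dist_eq_norm]; exact hg
  rw [eventually_circle hg] at hT
  rw [eventually_circle hg'] at hc
  have hc' : ∀ᶠ s : ℝ in 𝓝 0, c ∈ T (z + -((g - z) * cis s)) := by
    filter_upwards [hc] with s hs
    have e : z + (2 * z - g - z) * cis s = z + -((g - z) * cis s) := by ring
    rwa [e] at hs
  obtain ⟨η, hη, hsub⟩ := Metric.eventually_nhds_iff.1 (hT.and hc')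
  set ε : ℝ := min (η / 4) (1 / 4) with hε
  have he0 : 0 < ε := lt_min (by linarith) (by norm_num)
  have he1 : ε ≤ η / 4 := min_le_left _ _
  have he2 : ε ≤ 1 / 4 := min_le_right _ _
  have hd : ∀ s : ℝ, |s| < 3 * ε → T (z + (g - z) * cis s) = {a, b} ∧
      c ∈ T (z + -((g - z) * cis s)) := by
    intro s hs
    refine hsub ?_
    rw [Real.dist_eq, sub_zero]
    linarith
  -- the rays
  have hray : ∀ s : ℝ, |s| < 3 * ε → ∃ σ : ℝ, (σ = 1 ∨ σ = -1) ∧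
      Ray (U c) z ((σ : ℂ) * (Complex.I * ((g - z) * cis s))) := by
    intro s hs
    rcases C.ray h hmin (circle_pt hg s) (hd s hs).1 with ⟨h1, -⟩ | ⟨h1, -⟩
    · refine ⟨1, Or.inl rfl, ?_⟩
      rw [add_sub_cancel_left] at h1
      simpa using h1
    · refine ⟨-1, Or.inr rfl, ?_⟩
      rw [add_sub_cancel_left] at h1
      simpa using h1
  have hV : ∀ s : ℝ, dist (z + -((g - z) * cis s)) z = 1 := by
    intro s
    rw [dist_eq_norm, add_sub_cancel_left, norm_neg, norm_mul, hn, norm_cis, one_mul]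
  have hip : ∀ σ s t : ℝ, ip ((σ : ℂ) * (Complex.I * ((g - z) * cis s)))
      (z + -((g - z) * cis t) - z) = σ * Real.sin (s - t) := by
    intro σ s t
    rw [add_sub_cancel_left, ← ip_rot hn s t]
    unfold ip
    rw [Complex.re_ofReal_mul, Complex.im_ofReal_mul]
    ring
  obtain ⟨σ₁, hσ₁, r1⟩ := hray (-ε) (by rw [abs_neg, abs_of_pos he0]; linarith)
  obtain ⟨σ₂, hσ₂, r2⟩ := hray ε (by rw [abs_of_pos he0]; linarith)
  have k1 := h.ray_zone r1 r2 (hV 0) (hd 0 (by rw [abs_zero]; linarith)).2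
  have k2 := h.ray_zone r1 r2 (hV (2 * ε))
    (hd (2 * ε) (by rw [abs_of_pos (by linarith)]; linarith)).2
  rw [hip, hip] at k1 k2
  have s0 : 0 < Real.sin ε := Real.sin_pos_of_pos_of_lt_pi he0 (by linarith [Real.pi_gt_three])
  have s3 : 0 < Real.sin (3 * ε) :=
    Real.sin_pos_of_pos_of_lt_pi (by linarith) (by linarith [Real.pi_gt_three])
  have e1 : Real.sin (-ε - 0) = -Real.sin ε := by rw [sub_zero, Real.sin_neg]
  have e2 : Real.sin (ε - 0) = Real.sin ε := by rw [sub_zero]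
  have e3 : Real.sin (-ε - 2 * ε) = -Real.sin (3 * ε) := by rw [← Real.sin_neg]; congr 1; ring
  have e4 : Real.sin (ε - 2 * ε) = -Real.sin ε := by rw [← Real.sin_neg]; congr 1; ring
  rw [e1, e2] at k1
  rw [e3, e4] at k2
  have p1 : 0 < Real.sin ε * Real.sin ε := mul_pos s0 s0
  have p2 : 0 < Real.sin (3 * ε) * Real.sin ε := mul_pos s3 s0
  have q1 : σ₁ * σ₂ ≤ 0 := by
    by_contra hcon
    have := mul_pos (not_le.1 hcon) p1
    nlinarith
  have q2 : 0 ≤ σ₁ * σ₂ := by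
    by_contra hcon
    have := mul_pos (neg_pos.2 (not_le.1 hcon)) p2
    nlinarith
  rcases hσ₁ with rfl | rfl <;> rcases hσ₂ with rfl | rfl <;> linarith

/-- **Side data at a clean event** of a five-coloured point with all diagonals broken -/
theorem Full5.wed {z : ℂ} {c : Fin 5 → Fin 6} (F : Full5 T z c) (h : Irr U T)
    (hmin : ∀ z, 4 ≤ (T z).ncard → ∀ s, s ⊆ T z → s ≠ T z →
      ¬ ∀ᶠ w in 𝓝 z, ∃ i ∈ s, w ∈ U i ∨ (w ∈ XX U ∧ i ∈ Pal U w)) {q : ℂ} {l m r : Fin 5}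
    (hq : dist q z = 1) (L1 : Lt T z q {c l, c m}) (L2 : Lt T z q {c m, c r}) :
    Wed U z q (c l) (c m) (c r) := by
  have key : ∀ i j : Fin 5, Lt T z q {c i, c j} →
      ¬ (OutF U z q (c i) ∧ OutF U z q (c j)) ∧ ¬ (InF U z q (c i) ∧ InF U z q (c j)) := by
    intro i j hL
    constructor
    · rintro ⟨h1, h2⟩
      obtain ⟨p, ⟨h3, h4⟩, h5⟩ := (hL.freq.and_eventually
        (nhdsWithin_le_nhds (h1.nhds.and h2.nhds))).and_eventually self_mem_nhdsWithin |>.exists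
      refine h.not_all_out h5 fun x hx => ?_
      rw [h3] at hx
      rcases hx with rfl | rfl
      · exact h4.1
      · exact h4.2
    · rintro ⟨h1, h2⟩
      obtain ⟨p, ⟨h3, h4⟩, h5⟩ := (hL.freq.and_eventually
        (nhdsWithin_le_nhds (h1.nhds.and h2.nhds))).and_eventually self_mem_nhdsWithin |>.exists
      refine h.not_all_in h5 fun x hx => ?_
      rw [h3] at hx
      rcases hx with rfl | rfl
      · exact h4.1
      · exact h4.2
  obtain ⟨n1, n2⟩ := key l m L1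
  obtain ⟨n3, n4⟩ := key m r L2
  rcases F.sided h hmin m hq with hm | hm
  · have hl := (F.sided h hmin l hq).resolve_left fun hcon => n1 ⟨hcon, hm⟩
    have hr := (F.sided h hmin r hq).resolve_left fun hcon => n3 ⟨hm, hcon⟩
    exact Or.inl ⟨sd_iff_F.2 ⟨hm, hl⟩, sd_iff_F.2 ⟨hm, hr⟩⟩
  · have hl := (F.sided h hmin l hq).resolve_right fun hcon => n2 ⟨hcon, hm⟩
    have hr := (F.sided h hmin r hq).resolve_right fun hcon => n4 ⟨hm, hcon⟩
    exact Or.inr ⟨sd_iff_F.2 ⟨hl, hm⟩, sd_iff_F.2 ⟨hr, hm⟩⟩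

/-- a clean event `D(j-1) | D(j+1)` at `q` and an exact arc `D(j)` ending at `2z - q` do not occur
together, `D(i) = {c (i - 1), c (i + 1)}` -/
theorem Full5.no_opp {z : ℂ} {c : Fin 5 → Fin 6} (F : Full5 T z c) (h : Irr U T)
    (hmin : ∀ z, 4 ≤ (T z).ncard → ∀ s, s ⊆ T z → s ≠ T z →
      ¬ ∀ᶠ w in 𝓝 z, ∃ i ∈ s, w ∈ U i ∨ (w ∈ XX U ∧ i ∈ Pal U w)) {q v : ℂ} {j : Fin 5}
    {κ : ℝ} (hq : dist q z = 1) (hv : dist v z = 1) (hκ : κ = 1 ∨ κ = -1)
    (hx : ∀ᶠ t : ℝ in 𝓝[>] 0, c j ∈ T (hb z q κ t))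
    (hy : ∀ᶠ t : ℝ in 𝓝[>] 0, T (hb z v κ t) = {c (j + 4), c (j + 1)}) : q + v ≠ 2 * z := by
  intro hcon
  obtain ⟨t, h1, h2⟩ := ((Irr.hb_ev (P := fun p => T p = {c (j + 4), c (j + 1)}) hκ hv hy).and
    (Irr.hb_ev (P := fun p => c j ∈ T p) hκ hq hx)).exists
  have e : hb z q κ t = 2 * z - hb z v κ t := by
    unfold hb
    have e2 : q = 2 * z - v := by linear_combination hcon
    rw [e2]; ring
  rw [e] at h2
  exact (F.isoC j).anti h hmin (dist_hb hv κ t) h1 h2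

/-- **Rhombus cap at a five-coloured point** with all diagonals broken: if `S(z)` has a clean event
`D(j-1) | D(j+1)`, then at most one end of exact arcs `D(j)` has the sixth colour as its third
colour. -/
theorem Full5.cap {z : ℂ} {c : Fin 5 → Fin 6} (F : Full5 T z c) (h : Irr U T)
    (hmin : ∀ z, 4 ≤ (T z).ncard → ∀ s, s ⊆ T z → s ≠ T z →
      ¬ ∀ᶠ w in 𝓝 z, ∃ i ∈ s, w ∈ U i ∨ (w ∈ XX U ∧ i ∈ Pal U w)) {q v₁ v₂ : ℂ} {j : Fin 5}
    {τ κ₁ κ₂ : ℝ} (hq : dist q z = 1) (hT : T q = {c (j + 3), c j, c (j + 2)})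
    (hτ : τ = 1 ∨ τ = -1) (hx1 : ∀ᶠ t : ℝ in 𝓝[>] 0, T (hb z q τ t) = {c (j + 3), c j})
    (hx2 : ∀ᶠ t : ℝ in 𝓝[>] 0, T (hb z q (-τ) t) = {c j, c (j + 2)})
    (h1 : dist v₁ z = 1) (hT1 : T v₁ = (T q)ᶜ) (hκ₁ : κ₁ = 1 ∨ κ₁ = -1)
    (hy1 : ∀ᶠ t : ℝ in 𝓝[>] 0, T (hb z v₁ κ₁ t) = {c (j + 4), c (j + 1)})
    (h2 : dist v₂ z = 1) (hT2 : T v₂ = (T q)ᶜ) (hκ₂ : κ₂ = 1 ∨ κ₂ = -1)
    (hy2 : ∀ᶠ t : ℝ in 𝓝[>] 0, T (hb z v₂ κ₂ t) = {c (j + 4), c (j + 1)}) : v₁ = v₂ := by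
  have n1 : j + 3 ≠ j := by
    have : ∀ j : Fin 5, j + 3 ≠ j := by decide
    exact this j
  have n2 : j ≠ j + 2 := by
    have : ∀ j : Fin 5, j ≠ j + 2 := by decide
    exact this j
  have n3 : j + 3 ≠ j + 2 := by
    have : ∀ j : Fin 5, j + 3 ≠ j + 2 := by decide
    exact this j
  have hW := F.wed h hmin hq
    (h.lt_of_hb (fun hc => n1 (F.inj hc)) (F.mem _) (F.mem _) hq hx1)
    (h.lt_of_hb (fun hc => n2 (F.inj hc)) (F.mem _) (F.mem _) hq hx2)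
  have hc : ∀ κ : ℝ, (κ = 1 ∨ κ = -1) → ∀ᶠ t : ℝ in 𝓝[>] 0, c j ∈ T (hb z q κ t) := by
    intro κ hκ
    have h5 : κ = τ ∨ κ = -τ := by
      rcases hκ with rfl | rfl <;> rcases hτ with rfl | rfl <;> simp
    rcases h5 with rfl | rfl
    · filter_upwards [hx1] with t ht; rw [ht]; simp
    · filter_upwards [hx2] with t ht; rw [ht]; simp
  have h3 : ((T q)ᶜ).ncard ≤ 3 := by
    have h5 := Set.ncard_add_ncard_compl (T q)
    rw [Nat.card_eq_fintype_card, Fintype.card_fin] at h5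
    have h6 : (T q).ncard = 3 := by
      rw [hT]
      exact Set.ncard_eq_three.2 ⟨_, _, _, fun hc => n1 (F.inj hc), fun hc => n3 (F.inj hc),
        fun hc => n2 (F.inj hc), rfl⟩
    omega
  refine h.five_cap hT hW hq hτ ?_ ?_ h1 hT1 ?_ h2 hT2 ?_ h3
  · filter_upwards [hx1] with t ht; rw [ht]; simp
  · filter_upwards [hx2] with t ht; rw [ht]; simp
  · exact F.no_opp h hmin hq h1 hκ₁ (hc κ₁ hκ₁) hy1
  · exact F.no_opp h hmin hq h2 hκ₂ (hc κ₂ hκ₂) hy2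

end Vale.Agent.P032.Six
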