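import Vale.Agent.P032.H249.Five

/-!
# P032: an inner point of an exact arc sees half discs

`p ∈ S(z)`, `T p = {x, y}` with side data (`x` inside, `y` outside `S(z)`).  Near `p` the colours are
honest half discs (`Irr.half_in`, `Irr.half_out`).  Hence no point `q` of `S(p)` except `z` and
`2p - z` has the inner colour `x`, and no point except `z` has the outer colour `y`
(`Irr.half_only_in`, `Irr.half_only_out`).  A connected set `K` through `p` with the colour in all
palettes and without these points is contained in the open disc of radius one about `p`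
(`Irr.cell_in`, `Irr.cell_out`).
-/

open Set Filter Topology Metric

noncomputable section

namespace Vale.Agent.P032.Six

variable {k : ℕ} {U : Fin k → Set ℂ} {T : ℂ → Set (Fin k)}

/-- inside `S(z)` near `p` there is only the inner colour -/
theorem Irr.half_in (h : Irr U T) {z p : ℂ} {x y : Fin k} (hT : T p ⊆ {x, y})
    (hs : Sd U z p x y) : ∀ᶠ w in 𝓝 p, dist w z < 1 → w ∈ U x := by
  filter_upwards [hs, h.nhd p] with w h1 h2 h3
  refine h.mem_of_single fun i hi => ?_
  rcases hT (h2 hi) with rfl | rfl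
  · rfl
  · exact absurd (h.sub _ hi) (h1.2 h3)

/-- outside `S(z)` near `p` there is only the outer colour -/
theorem Irr.half_out (h : Irr U T) {z p : ℂ} {x y : Fin k} (hT : T p ⊆ {x, y})
    (hs : Sd U z p x y) : ∀ᶠ w in 𝓝 p, 1 < dist w z → w ∈ U y := by
  filter_upwards [hs, h.nhd p] with w h1 h2 h3
  refine h.mem_of_single fun i hi => ?_
  rcases hT (h2 hi) with rfl | rfl
  · exact absurd (h.sub _ hi) (h1.1 h3)
  · rfl

/-- **inner colour on `S(p)`** -/
theorem Irr.half_only_in (h : Irr U T) {z p q : ℂ} {x y : Fin k} (hpz : dist p z = 1)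
    (hT : T p ⊆ {x, y}) (hs : Sd U z p x y) (hq : dist q p = 1) (hx : x ∈ Pal U q) :
    q = z ∨ q + z = 2 * p := by
  by_contra hcon
  push Not at hcon
  have hpq : dist p q = 1 := by rw [dist_comm]; exact hq
  obtain ⟨τ, -, -, h1, -⟩ := hb_two hpz hpq hcon.1 hcon.2
  obtain ⟨t, ht, ht'⟩ := (h1.and ((tendsto_hb q p τ).eventually (h.half_in hT hs))).exists
  exact h.mx.free x _ (ht' ht) q hx (dist_hb hpq τ t)

/-- **outer colour on `S(p)`** -/
theorem Irr.half_only_out (h : Irr U T) {z p q : ℂ} {x y : Fin k} (hpz : dist p z = 1)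
    (hT : T p ⊆ {x, y}) (hs : Sd U z p x y) (hq : dist q p = 1) (hy : y ∈ Pal U q) : q = z := by
  by_contra hne
  have hpq : dist p q = 1 := by rw [dist_comm]; exact hq
  have key : ∃ τ : ℝ, ∀ᶠ t : ℝ in 𝓝[>] 0, 1 < dist (hb q p τ t) z := by
    by_cases h2 : q + z = 2 * p
    · exact ⟨1, hb_tangent hpq (by rw [add_comm]; exact h2) (Or.inl rfl)⟩
    · obtain ⟨τ, -, -, -, h1⟩ := hb_two hpz hpq hne h2
      exact ⟨-τ, h1⟩
  obtain ⟨τ, h1⟩ := key
  obtain ⟨t, ht, ht'⟩ := (h1.and ((tendsto_hb q p τ).eventually (h.half_out hT hs))).exists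
  exact h.mx.free y _ (ht' ht) q hy (dist_hb hpq τ t)

/-- a connected set through `p` without points at distance one -/
theorem conn_ball {K : Set ℂ} (hK : IsPreconnected K) {p : ℂ} (hp : p ∈ K)
    (h1 : ∀ q ∈ K, dist q p ≠ 1) : K ⊆ ball p 1 := by
  intro r hr
  rw [mem_ball]
  by_contra hcon
  have hcont : ContinuousOn (fun q : ℂ => dist q p) K := by fun_prop
  have := hK.intermediate_value hp hr hcont
  obtain ⟨q, hq, hq1⟩ := this ⟨by rw [dist_self]; exact zero_le_one, not_lt.1 hcon⟩
  exact h1 q hq hq1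

/-- **Cell argument, inner colour** -/
theorem Irr.cell_in (h : Irr U T) {z p : ℂ} {x y : Fin k} (hpz : dist p z = 1)
    (hT : T p ⊆ {x, y}) (hs : Sd U z p x y) {K : Set ℂ} (hK : IsPreconnected K) (hp : p ∈ K)
    (hx : ∀ q ∈ K, x ∈ Pal U q) (hz : z ∉ K) (hz' : 2 * p - z ∉ K) : K ⊆ ball p 1 := by
  refine conn_ball hK hp fun q hq h1 => ?_
  rcases h.half_only_in hpz hT hs h1 (hx q hq) with rfl | h2
  · exact hz hq
  · apply hz'
    have : 2 * p - z = q := by rw [← h2]; ring
    rw [this]; exact hq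

/-- **Cell argument, outer colour** -/
theorem Irr.cell_out (h : Irr U T) {z p : ℂ} {x y : Fin k} (hpz : dist p z = 1)
    (hT : T p ⊆ {x, y}) (hs : Sd U z p x y) {K : Set ℂ} (hK : IsPreconnected K) (hp : p ∈ K)
    (hy : ∀ q ∈ K, y ∈ Pal U q) (hz : z ∉ K) : K ⊆ ball p 1 := by
  refine conn_ball hK hp fun q hq h1 => ?_
  have := h.half_only_out hpz hT hs h1 (hy q hq)
  exact hz (this ▸ hq)

end Vale.Agent.P032.Six
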