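import Vale.Agent.P032.H249.Contact

/-!
# P032: circles through a three-coloured hub

`q ∈ S(z)`, `T q ⊆ {c, d, f}`, side data for `c, d` at `q` (`z` a two-pair centre with the pair `cd`).
Near `q` one side of `S(z)` has only the colours `c`, `f`, the other one only `d`, `f`.  Hence every
circle `S(w)` through `q` (not tangent) with `c, f ∈ T w` is exact `cf` on the half branch at `q` on
the side of `c` (`Irr.hub_exact`), and carries `d` on the other one (`Irr.hub_other`).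
-/

open Set Filter Topology Metric

noncomputable section

namespace Vale.Agent.P032.Six

variable {k : ℕ} {U : Fin k → Set ℂ} {T : ℂ → Set (Fin k)}

/-- the two sides of `S(z)` near a three-coloured point, `c` inside -/
theorem Irr.hub_near (h : Irr U T) {z q : ℂ} {c d f : Fin k} (hT : T q ⊆ {c, d, f})
    (hs : Sd U z q c d) :
    (∀ᶠ x in 𝓝 q, dist x z < 1 → T x ⊆ {c, f}) ∧ ∀ᶠ x in 𝓝 q, 1 < dist x z → T x ⊆ {d, f} := by
  constructor
  · filter_upwards [hs, h.nhd q] with x h1 h3 h4 i hi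
    rcases hT (h3 hi) with rfl | rfl | rfl
    · simp
    · exact absurd (h.sub _ hi) (h1.2 h4)
    · simp
  · filter_upwards [hs, h.nhd q] with x h1 h3 h4 i hi
    rcases hT (h3 hi) with rfl | rfl | rfl
    · exact absurd (h.sub _ hi) (h1.1 h4)
    · simp
    · simp

/-- **Exact half branches at a hub**, `c` inside `S(z)` -/
theorem Irr.hub_exact_in (h : Irr U T) {z q w : ℂ} {c d f : Fin k} (hT : T q ⊆ {c, d, f})
    (hs : Sd U z q c d) (hqz : dist q z = 1) (hqw : dist q w = 1) (hc : c ∈ T w) (hf : f ∈ T w)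
    {τ : ℝ} (hτ : τ * sg w q z < 0) : ∀ᶠ t : ℝ in 𝓝[>] 0, T (hb w q τ t) = {c, f} := by
  filter_upwards [hb_in (z := w) (v := q) (g := z) (by rw [dist_comm]; exact hqz) hτ,
    (tendsto_hb w q τ).eventually (h.hub_near hT hs).1] with t h1 h2
  exact h.pair_of_sub (dist_hb hqw τ t) (h.sub _ hc) (h.sub _ hf) (h2 h1)

/-- **Exact half branches at a hub**, `c` outside `S(z)` -/
theorem Irr.hub_exact_out (h : Irr U T) {z q w : ℂ} {c d f : Fin k} (hT : T q ⊆ {c, d, f})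
    (hs : Sd U z q d c) (hqz : dist q z = 1) (hqw : dist q w = 1) (hc : c ∈ T w) (hf : f ∈ T w)
    {τ : ℝ} (hτ : 0 < τ * sg w q z) : ∀ᶠ t : ℝ in 𝓝[>] 0, T (hb w q τ t) = {c, f} := by
  have hT' : T q ⊆ {d, c, f} := hT.trans (by rw [Set.insert_comm])
  filter_upwards [hb_out (z := w) (v := q) (g := z) (by rw [dist_comm]; exact hqz) hτ,
    (tendsto_hb w q τ).eventually (h.hub_near hT' hs).2] with t h1 h2
  exact h.pair_of_sub (dist_hb hqw τ t) (h.sub _ hc) (h.sub _ hf) (h2 h1)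

/-- **Exact half branches at a hub** -/
theorem Irr.hub_exact (h : Irr U T) {z q w : ℂ} {c d f : Fin k} (hT : T q ⊆ {c, d, f})
    (hs : Sd U z q c d ∨ Sd U z q d c) (hqz : dist q z = 1) (hqw : dist q w = 1) (hwz : w ≠ z)
    (hwz2 : w + z ≠ 2 * q) (hc : c ∈ T w) (hf : f ∈ T w) :
    ∃ τ : ℝ, (τ = 1 ∨ τ = -1) ∧ (∀ᶠ t : ℝ in 𝓝[>] 0, T (hb w q τ t) = {c, f}) ∧
      ((Sd U z q c d ∧ τ * sg w q z < 0) ∨ (Sd U z q d c ∧ 0 < τ * sg w q z)) := by
  have hsg : sg w q z ≠ 0 := sg_ne hqw (by rw [dist_comm]; exact hqz) hwz.symm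
    (by rw [add_comm]; exact hwz2)
  rcases hs with hs | hs
  · obtain ⟨τ, hτ, hτ'⟩ := (exists_sign hsg).1
    exact ⟨τ, hτ, h.hub_exact_in hT hs hqz hqw hc hf hτ', Or.inl ⟨hs, hτ'⟩⟩
  · obtain ⟨τ, hτ, hτ'⟩ := (exists_sign hsg).2
    exact ⟨τ, hτ, h.hub_exact_out hT hs hqz hqw hc hf hτ', Or.inr ⟨hs, hτ'⟩⟩

/-- on the other half branch the circle carries `d` -/
theorem Irr.hub_other (h : Irr U T) {z q w : ℂ} {c d f : Fin k} (hT : T q ⊆ {c, d, f})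
    (hqz : dist q z = 1) (hqw : dist q w = 1) (hf : f ∈ T w)
    {τ : ℝ} (hτ : (Sd U z q c d ∧ 0 < τ * sg w q z) ∨ (Sd U z q d c ∧ τ * sg w q z < 0)) :
    ∀ᶠ t : ℝ in 𝓝[>] 0, T (hb w q τ t) ⊆ {d, f} ∧ d ∈ T (hb w q τ t) := by
  have hzq : dist z q = 1 := by rw [dist_comm]; exact hqz
  have key : ∀ᶠ t : ℝ in 𝓝[>] 0, T (hb w q τ t) ⊆ {d, f} := by
    rcases hτ with ⟨hs, hτ⟩ | ⟨hs, hτ⟩
    · filter_upwards [hb_out (z := w) (v := q) (g := z) hzq hτ,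
        (tendsto_hb w q τ).eventually (h.hub_near hT hs).2] with t h1 h2
      exact h2 h1
    · have hT' : T q ⊆ {d, c, f} := hT.trans (by rw [Set.insert_comm])
      filter_upwards [hb_in (z := w) (v := q) (g := z) hzq hτ,
        (tendsto_hb w q τ).eventually (h.hub_near hT' hs).1] with t h1 h2
      exact h2 h1
  filter_upwards [key] with t ht
  refine ⟨ht, ?_⟩
  by_contra hcon
  refine h.not_single (z := w) (i := f) (h.sub _ hf) (dist_hb hqw τ t) fun i hi => ?_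
  rcases ht hi with rfl | h5
  · exact absurd hi hcon
  · exact h5

/-- `w` owns the wall `x|y` of `v`: `S(w)` is exact `xy` on the half branch `τ` at `v`, with `x` inside
(`σ = 1`) or outside (`σ = -1`) -/
structure Ow (U : Fin k → Set ℂ) (T : ℂ → Set (Fin k)) (w v : ℂ) (x y : Fin k) (τ σ : ℝ) :
    Prop where
  dist : dist v w = 1
  mx : x ∈ T w
  my : y ∈ T w
  sgn : τ = 1 ∨ τ = -1
  exact : ∀ᶠ t : ℝ in 𝓝[>] 0, T (hb w v τ t) = {x, y}
  side : (σ = 1 ∧ Sd U w v x y) ∨ (σ = -1 ∧ Sd U w v y x)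

theorem Ow.swap {w v : ℂ} {x y : Fin k} {τ σ : ℝ} (O : Ow U T w v x y τ σ) :
    Ow U T w v y x τ (-σ) :=
  ⟨O.dist, O.my, O.mx, O.sgn, by rw [Set.pair_comm]; exact O.exact, by
    rcases O.side with ⟨h1, h2⟩ | ⟨h1, h2⟩
    · exact Or.inr ⟨by rw [h1], h2⟩
    · exact Or.inl ⟨by rw [h1, neg_neg], h2⟩⟩

theorem Ow.ssgn {w v : ℂ} {x y : Fin k} {τ σ : ℝ} (O : Ow U T w v x y τ σ) : σ = 1 ∨ σ = -1 := by
  rcases O.side with ⟨h1, -⟩ | ⟨h1, -⟩
  · exact Or.inl h1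
  · exact Or.inr h1

theorem Ow.sides {w v : ℂ} {x y : Fin k} {τ σ : ℝ} (O : Ow U T w v x y τ σ) :
    Sd U w v x y ∨ Sd U w v y x := by
  rcases O.side with ⟨-, h1⟩ | ⟨-, h1⟩
  · exact Or.inl h1
  · exact Or.inr h1

/-- the sign of a half branch is determined -/
theorem sgn_of_mul {τ s : ℝ} (hτ : τ = 1 ∨ τ = -1) (hs : s ≠ 0) : 0 < τ * s ∨ τ * s < 0 := by
  rcases lt_trichotomy (τ * s) 0 with h1 | h1 | h1
  · exact Or.inr h1
  · exfalso
    rcases hτ with rfl | rfl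
    · exact hs (by linarith)
    · exact hs (by linarith)
  · exact Or.inl h1

/-- **Two owners at a hub**: `z` owns `a|b`, `w` owns `a|e`, `T v ⊆ {a, b, e}`. -/
theorem Ow.pair (h : Irr U T) {z w v : ℂ} {a b e : Fin k} {τ σ ρ κ : ℝ} (Oz : Ow U T z v a b τ σ)
    (Ow' : Ow U T w v a e ρ κ) (hT : T v ⊆ {a, b, e}) (hab : a ≠ b) (hbe : b ≠ e)
    (hwz : w ≠ z) (hwz2 : w + z ≠ 2 * v) : 0 < σ * (ρ * cr (z - v) (w - v)) := by
  have hzv : Dist.dist z v = 1 := by rw [dist_comm]; exact Oz.dist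
  have hs : sg w v z = -cr (z - v) (w - v) := by
    unfold sg cr; simp only [Complex.sub_re, Complex.sub_im]; ring
  have hsg : sg w v z ≠ 0 := sg_ne Ow'.dist hzv hwz.symm (by rw [add_comm]; exact hwz2)
  have hT' : T v ⊆ {a, b, e} := hT
  rcases Oz.side with ⟨h1, h2⟩ | ⟨h1, h2⟩
  · -- `a` inside
    rcases sgn_of_mul Ow'.sgn hsg with h3 | h3
    · exfalso
      have h4 := h.hub_other hT' Oz.dist Ow'.dist Ow'.my (Or.inl ⟨h2, h3⟩)
      obtain ⟨t, h5, h6⟩ := (h4.and Ow'.exact).exists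
      have h7 := h5.2
      rw [h6] at h7
      rcases h7 with h7 | h7
      · exact hab h7.symm
      · exact hbe h7
    · rw [h1, one_mul]
      rw [hs] at h3
      linarith
  · rcases sgn_of_mul Ow'.sgn hsg with h3 | h3
    · rw [h1]
      rw [hs] at h3
      linarith
    · exfalso
      have h4 := h.hub_other hT' Oz.dist Ow'.dist Ow'.my (Or.inr ⟨h2, h3⟩)
      obtain ⟨t, h5, h6⟩ := (h4.and Ow'.exact).exists
      have h7 := h5.2
      rw [h6] at h7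
      rcases h7 with h7 | h7
      · exact hab h7.symm
      · exact hbe h7

/-- the second sign for two owners -/
theorem Ow.pair' (h : Irr U T) {z w v : ℂ} {a b e : Fin k} {τ σ ρ κ : ℝ} (Oz : Ow U T z v a b τ σ)
    (Ow' : Ow U T w v a e ρ κ) (hT : T v ⊆ {a, b, e}) (hae : a ≠ e) (hbe : b ≠ e)
    (hwz : w ≠ z) (hwz2 : w + z ≠ 2 * v) : κ * (τ * cr (z - v) (w - v)) < 0 := by
  have h1 := Ow'.pair h Oz (hT.trans (by rw [Set.pair_comm b e])) hae hbe.symm hwz.symm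
    (by rw [add_comm]; exact hwz2)
  have h2 : cr (w - v) (z - v) = -cr (z - v) (w - v) := by unfold cr; ring
  rw [h2] at h1
  linarith

/-- **LP3 at a hub with three owners** `M` (`a|b`), `w₁` (`a|e`), `w₂` (`b|e`): the three vectors
`τ • (centre - v)` have cyclic cross products of one sign, the sign of `σ τ` of any of them. -/
theorem Ow.three (h : Irr U T) {M w₁ w₂ v : ℂ} {a b e : Fin k} {τ σ τ₁ σ₁ τ₂ σ₂ : ℝ}
    (O : Ow U T M v a b τ σ) (O₁ : Ow U T w₁ v a e τ₁ σ₁) (O₂ : Ow U T w₂ v b e τ₂ σ₂)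
    (hT : T v ⊆ {a, b, e}) (hab : a ≠ b) (hae : a ≠ e) (hbe : b ≠ e)
    (h1 : w₁ ≠ M) (h1' : w₁ + M ≠ 2 * v) (h2 : w₂ ≠ M) (h2' : w₂ + M ≠ 2 * v) (h3 : w₂ ≠ w₁)
    (h3' : w₂ + w₁ ≠ 2 * v) :
    0 < (σ * τ) * ((τ * τ₁) * cr (M - v) (w₁ - v)) ∧
      0 < (σ * τ) * ((τ₁ * τ₂) * cr (w₁ - v) (w₂ - v)) ∧
      0 < (σ * τ) * ((τ₂ * τ) * cr (w₂ - v) (M - v)) ∧ σ₁ = -(σ * τ * τ₁) ∧
      σ₂ = σ * τ * τ₂ := by
  have sq : ∀ x : ℝ, (x = 1 ∨ x = -1) → x * x = 1 := by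
    rintro x (rfl | rfl) <;> norm_num
  have t0 := sq τ O.sgn
  have t1 := sq τ₁ O₁.sgn
  have t2 := sq τ₂ O₂.sgn
  have u0 := sq σ O.ssgn
  have u1 := sq σ₁ O₁.ssgn
  have u2 := sq σ₂ O₂.ssgn
  -- `M`, `w₁`
  have p1 := O.pair h O₁ hT hab hbe h1 h1'
  have p1' := O.pair' h O₁ hT hae hbe h1 h1'
  -- `M`, `w₂` : common colour `b`
  have hT2 : T v ⊆ {b, a, e} := hT.trans (by rw [Set.insert_comm])
  have p2 := O.swap.pair h O₂ hT2 hab.symm hae h2 h2'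
  have p2' := O.swap.pair' h O₂ hT2 hbe hae h2 h2'
  -- `w₁`, `w₂` : common colour `e`
  have hT3 : T v ⊆ {e, a, b} := hT.trans (by
    rintro i (rfl | rfl | rfl) <;> simp)
  have p3 := O₁.swap.pair h O₂.swap hT3 hae.symm hab h3 h3'
  have p3' := O₁.swap.pair' h O₂.swap hT3 hbe.symm hab h3 h3'
  set s1 := cr (M - v) (w₁ - v) with hs1
  set s2 := cr (M - v) (w₂ - v) with hs2
  set s3 := cr (w₁ - v) (w₂ - v) with hs3
  have hs2' : cr (w₂ - v) (M - v) = -s2 := by rw [hs2]; unfold cr; ring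
  rw [hs2']
  have sel : ∀ x y s : ℝ, (x = 1 ∨ x = -1) → (y = 1 ∨ y = -1) → 0 < x * s → y * s < 0 → y = -x := by
    rintro x y s (rfl | rfl) (rfl | rfl) h1 h2 <;> first | rfl | (exfalso; linarith) | norm_num
  have pm : ∀ x y : ℝ, (x = 1 ∨ x = -1) → (y = 1 ∨ y = -1) → (x * y = 1 ∨ x * y = -1) := by
    rintro x y (rfl | rfl) (rfl | rfl) <;> norm_num
  have e1 : σ₁ * τ = -(σ * τ₁) := sel (σ * τ₁) (σ₁ * τ) s1 (pm _ _ O.ssgn O₁.sgn)
    (pm _ _ O₁.ssgn O.sgn) (by linarith) (by linarith)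
  have e2 : σ₂ * τ = σ * τ₂ := by
    have := sel (-σ * τ₂) (σ₂ * τ) s2 (pm _ _ O.swap.ssgn O₂.sgn) (pm _ _ O₂.ssgn O.sgn)
      (by linarith) (by linarith)
    linarith
  have e3 : σ₁ = -(σ * τ * τ₁) := by
    calc σ₁ = σ₁ * (τ * τ) := by rw [t0, mul_one]
      _ = σ₁ * τ * τ := by ring
      _ = -(σ * τ₁) * τ := by rw [e1]
      _ = -(σ * τ * τ₁) := by ring
  have e4 : σ₂ = σ * τ * τ₂ := by
    calc σ₂ = σ₂ * (τ * τ) := by rw [t0, mul_one]
      _ = σ₂ * τ * τ := by ring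
      _ = σ * τ₂ * τ := by rw [e2]
      _ = σ * τ * τ₂ := by ring
  refine ⟨?_, ?_, ?_, e3, e4⟩
  · have : (σ * τ) * ((τ * τ₁) * s1) = (τ * τ) * (σ * (τ₁ * s1)) := by ring
    rw [this, t0, one_mul]; exact p1
  · -- `p3 : 0 < -σ₁ * (τ₂ * s3)`
    have : (σ * τ) * ((τ₁ * τ₂) * s3) = -σ₁ * (τ₂ * s3) := by rw [e3]; ring
    rw [this]; exact p3
  · have : (σ * τ) * ((τ₂ * τ) * -s2) = (τ * τ) * (-σ * (τ₂ * s2)) := by ring
    rw [this, t0, one_mul]; exact p2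

/-- a circle through `q` with `c, d, f` in the palette of its centre would be exact `cf` and `df` at
`q`; two-coloured points with crossing palettes on one circle -/
theorem Irr.hub_no_three {U : Fin 6 → Set ℂ} {T : ℂ → Set (Fin 6)} (h : Irr U T) (hmin : Mn U T)
    {z q w : ℂ} {c d f : Fin 6} (hT : T q ⊆ {c, d, f})
    (hs : Sd U z q c d ∨ Sd U z q d c) (hqz : dist q z = 1) (hqw : dist q w = 1) (hwz : w ≠ z)
    (hwz2 : w + z ≠ 2 * q) (hw4 : (T w).ncard = 4) (hc : c ∈ T w) (hd : d ∈ T w) (hf : f ∈ T w)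
    (hcd : c ≠ d) (hcf : c ≠ f) (hdf : d ≠ f) : False := by
  obtain ⟨τ, -, h1, -⟩ := h.hub_exact hT hs hqz hqw hwz hwz2 hc hf
  obtain ⟨σ, -, h2, -⟩ := h.hub_exact (c := d) (d := c) (hT.trans (by rw [Set.insert_comm]))
    hs.symm hqz hqw hwz hwz2 hd hf
  obtain ⟨t, ht⟩ := h1.exists
  obtain ⟨s, hs'⟩ := h2.exists
  exact h.no_meet hmin hw4 (dist_hb hqw σ s) (dist_hb hqw τ t)
    (by rw [hs', Set.pair_comm]) ht hf hd hc hdf.symm hcf hcd

end Vale.Agent.P032.Six
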