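import Vale.Agent.P032.H249.Half

/-!
# P032: cells have no islands

`Irr.hull` : if `Q ⊆ U i` is preconnected and `x ∉ Q` lies in a bounded component of the complement of
`Q`, then `x ∈ U i`.  (All of `U i` has its components simply connected: an island inside a cell could
be coloured with the colour of the cell.)
-/

open Set Filter Topology Metric

noncomputable section

namespace Vale.Agent.P032.Six

/-- a component of the complement of a set inside a disc which leaves the disc is unbounded -/
theorem comp_unbounded {Q : Set ℂ} {p b x : ℂ} {ρ : ℝ} (hρ : 0 ≤ ρ) (hQ : Q ⊆ closedBall p ρ)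
    (hb : b ∈ connectedComponentIn Qᶜ x) (hd : ρ < dist b p) :
    ¬ Bornology.IsBounded (connectedComponentIn Qᶜ x) := by
  intro hB
  have hr : 0 < dist b p := lt_of_le_of_lt hρ hd
  have hrank : 1 < Module.rank ℝ ℂ := by rw [Complex.rank_real_complex]; norm_num
  have hS : IsPreconnected (sphere p (dist b p)) := isPreconnected_sphere hrank p _
  have hSQ : sphere p (dist b p) ⊆ Qᶜ := by
    intro q hq hqQ
    have h1 := hQ hqQ
    rw [mem_closedBall] at h1
    rw [mem_sphere] at hq
    linarith
  have hSB : sphere p (dist b p) ⊆ connectedComponentIn Qᶜ x := by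
    rw [connectedComponentIn_eq hb]
    exact hS.subset_connectedComponentIn (mem_sphere.2 rfl) hSQ
  have h0 : p + ((dist b p : ℝ) : ℂ) ∈ connectedComponentIn Qᶜ x := by
    apply hSB
    rw [mem_sphere, dist_eq_norm, add_sub_cancel_left, Complex.norm_real, Real.norm_eq_abs,
      abs_of_pos hr]
  -- the ray
  have hR : IsPreconnected ((fun t : ℝ => p + (t : ℂ)) '' Ici (dist b p)) :=
    (isPreconnected_Ici).image _ (by fun_prop)
  have hRQ : (fun t : ℝ => p + (t : ℂ)) '' Ici (dist b p) ⊆ Qᶜ := by
    rintro _ ⟨t, ht, rfl⟩ hqQ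
    have h1 := hQ hqQ
    have ht : dist b p ≤ t := ht
    rw [mem_closedBall, dist_eq_norm, add_sub_cancel_left, Complex.norm_real, Real.norm_eq_abs,
      abs_of_pos (by linarith)] at h1
    linarith
  have hRB : (fun t : ℝ => p + (t : ℂ)) '' Ici (dist b p) ⊆ connectedComponentIn Qᶜ x := by
    rw [connectedComponentIn_eq h0]
    exact hR.subset_connectedComponentIn ⟨_, self_mem_Ici, rfl⟩ hRQ
  obtain ⟨C, hC⟩ := (Metric.isBounded_iff_subset_closedBall p).1 hB
  have h2 := hC (hRB ⟨max (dist b p) (C + 1), mem_Ici.2 (le_max_left _ _), rfl⟩)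
  have h3 : C + 1 ≤ max (dist b p) (C + 1) := le_max_right _ _
  have h4 : dist b p ≤ max (dist b p) (C + 1) := le_max_left _ _
  rw [mem_closedBall, dist_eq_norm, add_sub_cancel_left, Complex.norm_real, Real.norm_eq_abs,
    abs_of_pos (by linarith)] at h2
  linarith

variable {k : ℕ} {U : Fin k → Set ℂ} {T : ℂ → Set (Fin k)}

/-- a connected subset of `U i` has diameter at most one -/
theorem Irr.conn_sub_ball (h : Irr U T) {i : Fin k} {Q : Set ℂ} (hQ : IsPreconnected Q)
    (hsub : Q ⊆ U i) {p : ℂ} (hp : p ∈ Q) : Q ⊆ ball p 1 :=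
  conn_ball hQ hp fun q hq => h.mx.free i q (hsub hq) p (subset_closure (hsub hp))

/-- **No islands**: a point surrounded by a connected subset of `U i` is in `U i`.  (The hypothesis
`_hix` is only needed in the map frame.) -/
theorem Irr.hull (h : Irr U T) {i : Fin k} {Q : Set ℂ} (hQ : IsPreconnected Q)
    (hsub : Q ⊆ U i) {x : ℂ} (_hix : x ∉ XX U ∨ i ∈ T x) (hxQ : x ∉ Q)
    (hx : Bornology.IsBounded (connectedComponentIn Qᶜ x)) : x ∈ U i := by
  refine h.max i x fun y hy hxy => ?_
  have hrank : 1 < Module.rank ℝ ℂ := by rw [Complex.rank_real_complex]; norm_num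
  have hS : IsPreconnected (sphere y (1 : ℝ)) := isPreconnected_sphere hrank y _
  have hSQ : sphere y (1 : ℝ) ⊆ Qᶜ := by
    intro q hq hqQ
    exact h.mx.free i q (hsub hqQ) y hy hq
  have hSB : sphere y (1 : ℝ) ⊆ connectedComponentIn Qᶜ x :=
    hS.subset_connectedComponentIn hxy hSQ
  have hxx : x ∈ connectedComponentIn Qᶜ x := mem_connectedComponentIn hxQ
  -- `y` is the only point of `Q`
  have hone : ∀ p ∈ Q, p = y := by
    intro p hp
    by_contra hpy
    have hpy' : 0 < dist y p := dist_pos.2 (Ne.symm hpy)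
    set u : ℂ := (y - p) / ((dist y p : ℝ) : ℂ) with hu
    have hune : ((dist y p : ℝ) : ℂ) ≠ 0 := by
      exact_mod_cast hpy'.ne'
    have hun : ‖u‖ = 1 := by
      rw [hu, norm_div, Complex.norm_real, Real.norm_eq_abs, abs_of_pos hpy', ← dist_eq_norm,
        div_self hpy'.ne']
    have h1 : y + u ∈ sphere y (1 : ℝ) := by
      rw [mem_sphere, dist_eq_norm, add_sub_cancel_left, hun]
    have h2 : dist (y + u) p = 1 + dist y p := by
      have e : y + u - p = ((1 + dist y p : ℝ) : ℂ) * u := by
        have e1 : y - p = ((dist y p : ℝ) : ℂ) * u := by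
          rw [hu, mul_div_cancel₀ _ hune]
        rw [Complex.ofReal_add, Complex.ofReal_one]
        linear_combination e1
      rw [dist_eq_norm, e, norm_mul, hun, mul_one, Complex.norm_real, Real.norm_eq_abs,
        abs_of_pos (by linarith)]
    exact comp_unbounded zero_le_one
      ((h.conn_sub_ball hQ hsub hp).trans ball_subset_closedBall) (hSB h1)
      (by rw [h2]; linarith) hx
  have hQy : Q ⊆ closedBall y 0 := fun p hp => by
    rw [hone p hp]; exact mem_closedBall_self le_rfl
  exact comp_unbounded le_rfl hQy hxx (by rw [hxy]; exact zero_lt_one) hx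

end Vale.Agent.P032.Six
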