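import Vale.Agent.P032.H249.RhD5
import Vale.Agent.P032.H249.Contact
import Vale.Agent.P032.H380.Iso

/-!
# P032: rhombus at a beta hub

`z = ab|cd`, `V = ac|bd` (beta partner on `S(z)`, an exact `ab`-half branch of `S(z)` ends at `V`),
`q` the end of an exact `cd`-half branch with `T q = {c, d, e}`, `w = V + q - z`.  Then `f ∈ T w`;
`S(V)` misses `c, d` on the half branch at `w` parallel to the arc at `q`; if
`a, c ∈ T w` then `T w` is `acf`, or `abcf` (contact `bc` at `V`), `acdf` (contact `ad` at `V`),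
`acef` (contact `ce` at `q`); similarly for `b, d ∈ T w`.  `Irr.beta_letters` : the letters of any
other circle `S(w)` at `V`.
-/

open Set Filter Topology Metric

noncomputable section

namespace Vale.Agent.P032.Six

variable {U : Fin 6 → Set ℂ} {T : ℂ → Set (Fin 6)}

/-- the letters at a two-pair point `V` do not contain its pairs -/
theorem Irr.lt_no_pair (h : Irr U T) {w V : ℂ} {a b c d : Fin 6} (hV : DPt T V a b c d)
    {o : Set (Fin 6)} (ho : Lt T w V o) (hne : o ≠ T V) : ¬ (a ∈ o ∧ b ∈ o) := by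
  rintro ⟨ha, hb'⟩
  obtain ⟨p, hp1, hp2⟩ := (ho.freq.and_eventually (nhdsWithin_le_nhds (h.iso_ab hV))).exists
  refine hp2 ?_ ⟨h.sub _ (by rw [hp1]; exact ha), h.sub _ (by rw [hp1]; exact hb')⟩
  rintro rfl
  exact hne hp1.symm

/-- a two-element subset of four named elements -/
theorem two_of_four {o : Set (Fin 6)} {a b c d : Fin 6} (hs : o ⊆ {a, b, c, d}) (h2 : o.ncard = 2)
    (hab : ¬ (a ∈ o ∧ b ∈ o)) (hcd : ¬ (c ∈ o ∧ d ∈ o)) (hac : ¬ (a ∈ o ∧ c ∈ o))
    (hbd : ¬ (b ∈ o ∧ d ∈ o)) : o = {a, d} ∨ o = {b, c} := by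
  obtain ⟨x, y, hxy, rfl⟩ := Set.ncard_eq_two.1 h2
  have hx' : x ∈ ({x, y} : Set (Fin 6)) := by simp
  have hy' : y ∈ ({x, y} : Set (Fin 6)) := by simp
  have hx := hs hx'
  have hy := hs hy'
  rcases hx with rfl | rfl | rfl | rfl <;> rcases hy with rfl | rfl | rfl | rfl <;>
    first
    | exact absurd rfl hxy
    | exact (hab ⟨hx', hy'⟩).elim
    | exact (hab ⟨hy', hx'⟩).elim
    | exact (hcd ⟨hx', hy'⟩).elim
    | exact (hcd ⟨hy', hx'⟩).elim
    | exact (hac ⟨hx', hy'⟩).elim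
    | exact (hac ⟨hy', hx'⟩).elim
    | exact (hbd ⟨hx', hy'⟩).elim
    | exact (hbd ⟨hy', hx'⟩).elim
    | exact Or.inl rfl
    | exact Or.inl (Set.pair_comm _ _)
    | exact Or.inr rfl
    | exact Or.inr (Set.pair_comm _ _)

/-- **Letters of other circles at a beta point.**  `z = ab|cd`, `V = ac|bd`, `w` any other centre on
`S(V)` with at most four colours: for every `t ∈ T z` there is a letter of `S(w)` at `V` without `t`,
and a letter inside `T w` is `ad` or `bc`. -/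
theorem Irr.beta_letters (h : Irr U T) {z V w : ℂ} {a b c d : Fin 6} (hz : DPt T z a b c d)
    (hV : DPt T V a c b d) (hVz : dist V z = 1) (hVw : dist V w = 1) (hwz : w ≠ z)
    (hwz2 : w + z ≠ 2 * V) (hw4 : (T w).ncard ≤ 4) {t : Fin 6} (ht : t ∈ T z) :
    ∃ o, Lt T w V o ∧ t ∉ o ∧ o ⊆ T V ∧ (o ⊆ T w → o = {a, d} ∨ o = {b, c}) := by
  obtain ⟨o, ho, hto⟩ := h.apex hVw hVz hwz.symm (by rw [add_comm]; exact hwz2) ht
  have hoV := h.lt_sub ho
  refine ⟨o, ho, hto, hoV, fun hs => ?_⟩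
  obtain ⟨h1, h2⟩ := h.lt_two ho hs
  have h3 := Set.ncard_sdiff hs (Set.toFinite _)
  have ho2 : o.ncard = 2 := by omega
  have hV4 : (T V).ncard = 4 := by
    rw [hV.pal]; exact ncard4 hV.ab hV.ac hV.ad hV.bc hV.bd hV.cd
  have hne : o ≠ T V := by
    rintro rfl; omega
  have n1 := h.lt_no_pair hV ho hne
  have n2 := h.lt_no_pair hV.swap ho hne
  have hpal : T V = {a, b, c, d} := by rw [hV.pal]; ext x; simp; tauto
  have n3 : ¬ (a ∈ o ∧ b ∈ o) := by
    rintro ⟨ha, hb'⟩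
    have hoe : o = {a, b} := by
      obtain ⟨x, y, hxy, rfl⟩ := Set.ncard_eq_two.1 ho2
      rcases ha with rfl | rfl <;> rcases hb' with rfl | rfl
      · exact absurd rfl hz.ab
      · rfl
      · exact Set.pair_comm _ _
      · exact absurd rfl hz.ab
    rw [hoe] at ho hne
    exact hwz (h.contact_dpt hVw hVz ho hne.symm hz)
  have n4 : ¬ (c ∈ o ∧ d ∈ o) := by
    rintro ⟨ha, hb'⟩
    have hoe : o = {c, d} := by
      obtain ⟨x, y, hxy, rfl⟩ := Set.ncard_eq_two.1 ho2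
      rcases ha with rfl | rfl <;> rcases hb' with rfl | rfl
      · exact absurd rfl hz.cd
      · rfl
      · exact Set.pair_comm _ _
      · exact absurd rfl hz.cd
    rw [hoe] at ho hne
    exact hwz (h.contact_dpt hVw hVz ho hne.symm hz.swap)
  exact two_of_four (hpal ▸ hoV) ho2 n3 n4 n1 n2

theorem eq_acf {M : Set (Fin 6)} {a b c d e f : Fin 6} (hnd : [a, b, c, d, e, f].Nodup)
    (ha : a ∈ M) (hb' : b ∉ M) (hc : c ∈ M) (hd : d ∉ M) (he : e ∉ M) (hf : f ∈ M) :
    M = {a, c, f} := by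
  refine Subset.antisymm (fun i hi => ?_) ?_
  · rcases all_six hnd i with rfl | rfl | rfl | rfl | rfl | rfl
    · exact Or.inl rfl
    · exact absurd hi hb'
    · exact Or.inr (Or.inl rfl)
    · exact absurd hi hd
    · exact absurd hi he
    · exact Or.inr (Or.inr rfl)
  · rintro i (rfl | rfl | rfl) <;> assumption

theorem eq_bdf {M : Set (Fin 6)} {a b c d e f : Fin 6} (hnd : [a, b, c, d, e, f].Nodup)
    (ha : a ∉ M) (hb' : b ∈ M) (hc : c ∉ M) (hd : d ∈ M) (he : e ∉ M) (hf : f ∈ M) :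
    M = {b, d, f} := by
  refine Subset.antisymm (fun i hi => ?_) ?_
  · rcases all_six hnd i with rfl | rfl | rfl | rfl | rfl | rfl
    · exact absurd hi ha
    · exact Or.inl rfl
    · exact absurd hi hc
    · exact Or.inr (Or.inl rfl)
    · exact absurd hi he
    · exact Or.inr (Or.inr rfl)
  · rintro i (rfl | rfl | rfl) <;> assumption

/-- **Contacts of other circles at a beta point**: three colours of `T V` in `T w` -/
theorem Irr.beta_contacts (h : Irr U T) {z V w : ℂ} {a b c d : Fin 6} (hz : DPt T z a b c d)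
    (hV : DPt T V a c b d) (hVz : dist V z = 1) (hVw : dist V w = 1) (hwz : w ≠ z)
    (hwz2 : w + z ≠ 2 * V) (hw4 : (T w).ncard ≤ 4) :
    (a ∈ T w → b ∈ T w → c ∈ T w → Lt T w V {b, c}) ∧
      (b ∈ T w → c ∈ T w → d ∈ T w → Lt T w V {b, c}) ∧
      (a ∈ T w → c ∈ T w → d ∈ T w → Lt T w V {a, d}) ∧
      (a ∈ T w → b ∈ T w → d ∈ T w → Lt T w V {a, d}) := by
  have haz : a ∈ T z := by rw [hz.pal]; simp
  have hbz : b ∈ T z := by rw [hz.pal]; simp
  have hcz : c ∈ T z := by rw [hz.pal]; simp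
  have hdz : d ∈ T z := by rw [hz.pal]; simp
  have hbl := fun t (ht : t ∈ T z) => h.beta_letters hz hV hVz hVw hwz hwz2 hw4 ht
  have hpal : ∀ i ∈ T V, i = a ∨ i = b ∨ i = c ∨ i = d := by
    intro i hi
    rw [hV.pal] at hi
    rcases hi with rfl | rfl | rfl | rfl <;> simp
  refine ⟨fun h1 h2 h3 => ?_, fun h1 h2 h3 => ?_, fun h1 h2 h3 => ?_, fun h1 h2 h3 => ?_⟩
  · obtain ⟨o, k1, k2, k3, k4⟩ := hbl d hdz
    have hs : o ⊆ T w := by
      intro i hi
      rcases hpal i (k3 hi) with rfl | rfl | rfl | rfl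
      · exact h1
      · exact h2
      · exact h3
      · exact absurd hi k2
    rcases k4 hs with rfl | rfl
    · exact absurd (show d ∈ ({a, d} : Set (Fin 6)) by simp) k2
    · exact k1
  · obtain ⟨o, k1, k2, k3, k4⟩ := hbl a haz
    have hs : o ⊆ T w := by
      intro i hi
      rcases hpal i (k3 hi) with rfl | rfl | rfl | rfl
      · exact absurd hi k2
      · exact h1
      · exact h2
      · exact h3
    rcases k4 hs with rfl | rfl
    · exact absurd (show a ∈ ({a, d} : Set (Fin 6)) by simp) k2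
    · exact k1
  · obtain ⟨o, k1, k2, k3, k4⟩ := hbl b hbz
    have hs : o ⊆ T w := by
      intro i hi
      rcases hpal i (k3 hi) with rfl | rfl | rfl | rfl
      · exact h1
      · exact absurd hi k2
      · exact h2
      · exact h3
    rcases k4 hs with rfl | rfl
    · exact k1
    · exact absurd (show b ∈ ({b, c} : Set (Fin 6)) by simp) k2
  · obtain ⟨o, k1, k2, k3, k4⟩ := hbl c hcz
    have hs : o ⊆ T w := by
      intro i hi
      rcases hpal i (k3 hi) with rfl | rfl | rfl | rfl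
      · exact h1
      · exact h2
      · exact absurd hi k2
      · exact h3
    rcases k4 hs with rfl | rfl
    · exact k1
    · exact absurd (show c ∈ ({b, c} : Set (Fin 6)) by simp) k2

/-- **Rhombus at a beta hub.**  `z = ab|cd`, an exact `ab`-half branch of `S(z)` ends at
`V = ac|bd`, an exact `cd`-half branch of `S(z)` ends at `q` with `T q = {c, d, e}`, `w = V + q - z`. -/
theorem Irr.rhB (h : Irr U T) {z V q w : ℂ} {a b c d e f : Fin 6} {τ0 τJ : ℝ}
    (hnd : [a, b, c, d, e, f].Nodup) (hz : DPt T z a b c d) (hV : DPt T V a c b d)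
    (hVz : dist V z = 1) (hqz : dist q z = 1) (hTq : T q = {c, d, e})
    (hx0 : ∀ᶠ t : ℝ in 𝓝[>] 0, T (hb z V τ0 t) = {a, b})
    (hJ : ∀ᶠ t : ℝ in 𝓝[>] 0, T (hb z q τJ t) = {c, d}) (hw : w = V + q - z)
    (hw4 : (T w).ncard ≤ 4) :
    (∀ᶠ t : ℝ in 𝓝[>] 0, f ∈ T (hb q w τ0 t)) ∧ f ∈ T w ∧
    (∀ᶠ t : ℝ in 𝓝[>] 0, c ∉ T (hb V w τJ t) ∧ d ∉ T (hb V w τJ t)) ∧
    (a ∈ T w → c ∈ T w → (T w = {a, c, f} ∨ (T w = {a, b, c, f} ∧ Lt T w V {b, c}) ∨
        (T w = {a, c, d, f} ∧ Lt T w V {a, d}) ∨ (T w = {a, c, e, f} ∧ Lt T w q {c, e}))) ∧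
    (b ∈ T w → d ∈ T w → (T w = {b, d, f} ∨ (T w = {a, b, d, f} ∧ Lt T w V {a, d}) ∨
        (T w = {b, c, d, f} ∧ Lt T w V {b, c}) ∨ (T w = {b, d, e, f} ∧ Lt T w q {d, e}))) ∧
    (e ∈ T w → (c ∈ T w → Lt T w q {c, e}) ∧ (d ∈ T w → Lt T w q {d, e})) := by
  obtain ⟨⟨nab, nac, nad, nae, naf, nbc, nbd, nbe, nbf, ncd, nce, ncf, nde, ndf, nef⟩, -⟩ :=
    nd6 hnd
  have haV : a ∈ T V := by rw [hV.pal]; simp
  have hbV : b ∈ T V := by rw [hV.pal]; simp
  have haz : a ∈ T z := by rw [hz.pal]; simp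
  have hbz : b ∈ T z := by rw [hz.pal]; simp
  have hcz : c ∈ T z := by rw [hz.pal]; simp
  have hdz : d ∈ T z := by rw [hz.pal]; simp
  have hcq : c ∈ T q := by rw [hTq]; simp
  have hdq : d ∈ T q := by rw [hTq]; simp
  have hne : q ≠ V := by
    rintro rfl
    rw [hTq] at haV
    rcases haV with h1 | h1 | h1
    · exact nac h1
    · exact nad h1
    · exact nae h1
  have hanti := h.rh_anti hz hVz hqz haV hbV hcq hdq hne
  obtain ⟨hwV, hwq, hwz, hne2⟩ := rh4_geo hVz hqz hanti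
  have hmissA := h.par_miss haz hbz hVz hqz hne hanti hx0
  have hmissJ := h.par_miss (V := q) (q := V) hcz hdz hqz hVz hne.symm
    (by rw [add_comm]; exact hanti) hJ
  rw [show q + V - z = V + q - z by ring] at hmissJ
  rw [← hw] at hwV hwq hwz hne2 hmissA hmissJ
  have hwz2 : w + z ≠ 2 * V := by
    intro hcon
    apply hne
    rw [hw] at hcon
    linear_combination hcon
  have hwz3 : z + w ≠ 2 * q := by
    intro hcon
    apply hne
    rw [hw] at hcon
    linear_combination -hcon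
  have hq3 : (T q).ncard ≤ 3 := card3_le hTq
  have hfh : ∀ᶠ t : ℝ in 𝓝[>] 0, f ∈ T (hb q w τ0 t) := by
    filter_upwards [hmissA] with t ht
    obtain ⟨i, hi, hiq⟩ := h.not_sub' (x := q) (y := hb q w τ0 t) (dist_hb hwq τ0 t) hq3
    rw [hTq] at hiq
    simp only [mem_insert_iff, mem_singleton_iff, not_or] at hiq
    rcases all_six hnd i with rfl | rfl | rfl | rfl | rfl | rfl
    · exact absurd hi ht.1
    · exact absurd hi ht.2
    · exact absurd rfl hiq.1
    · exact absurd rfl hiq.2.1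
    · exact absurd rfl hiq.2.2
    · exact hi
  have hfw : f ∈ T w := h.mem_of_hb hfh
  obtain ⟨k1, k2, k3, k4⟩ := h.beta_contacts hz hV hVz (by rw [dist_comm]; exact hwV) hwz hwz2 hw4
  have hce : c ∈ T w → e ∈ T w → Lt T w q {c, e} := by
    intro h1 h2
    have := h.rh_pair (f := e) (m := c) (l' := d) hwq hqz hwz hwz3 hdz
      (by rw [hTq, Set.insert_comm]) nce.symm h2 h1
    rwa [Set.pair_comm] at this
  have hde : d ∈ T w → e ∈ T w → Lt T w q {d, e} := by
    intro h1 h2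
    have := h.rh_pair (f := e) (m := d) (l' := c) hwq hqz hwz hwz3 hcz hTq nde.symm h2 h1
    rwa [Set.pair_comm] at this
  refine ⟨hfh, hfw, hmissJ, fun ha hc => ?_, fun hb' hd => ?_, fun he => ⟨fun hc => hce hc he,
    fun hd => hde hd he⟩⟩
  · by_cases hb' : b ∈ T w
    · exact Or.inr (Or.inl ⟨eq_four hw4 ha hb' hc hfw nab nac naf nbc nbf ncf, k1 ha hb' hc⟩)
    by_cases hd : d ∈ T w
    · exact Or.inr (Or.inr (Or.inl ⟨eq_four hw4 ha hc hd hfw nac nad naf ncd ncf ndf,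
        k3 ha hc hd⟩))
    by_cases he : e ∈ T w
    · exact Or.inr (Or.inr (Or.inr ⟨eq_four hw4 ha hc he hfw nac nae naf nce ncf nef, hce hc he⟩))
    exact Or.inl (eq_acf hnd ha hb' hc hd he hfw)
  · by_cases ha : a ∈ T w
    · exact Or.inr (Or.inl ⟨eq_four hw4 ha hb' hd hfw nab nad naf nbd nbf ndf, k4 ha hb' hd⟩)
    by_cases hc : c ∈ T w
    · exact Or.inr (Or.inr (Or.inl ⟨eq_four hw4 hb' hc hd hfw nbc nbd nbf ncd ncf ndf,
        k2 hb' hc hd⟩))
    by_cases he : e ∈ T w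
    · exact Or.inr (Or.inr (Or.inr ⟨eq_four hw4 hb' hd he hfw nbd nbe nbf nde ndf nef, hde hd he⟩))
    exact Or.inl (eq_bdf hnd ha hb' hc hd he hfw)

end Vale.Agent.P032.Six
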