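import Vale.Agent.P032.H249.Rh4
import Vale.Agent.P032.S5.H843.Core7

/-!
# P032: the rhombus at a delta hub

Frame `Irr U T`, six colours.  `z = ab|cd`, `V ∈ S(z)` a two-pair point `ac|be` at which an exact
`ab`-arc of `S(z)` ends (delta), `q ∈ S(z)` an end of a `cd`-arc with `T q = {c, d, f}` or
`T q = {c, d, e}`, `w = V + q - z`.
-/

open Set Filter Topology Metric

noncomputable section

namespace Vale.Agent.P032.Six

variable {U : Fin 6 → Set ℂ} {T : ℂ → Set (Fin 6)}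

/-- **Parallel half branch**: an exact `ab`-half branch of `S(z)` at `V`, `q ∈ S(z)`: the parallel half
branch of `S(q)` at `w = V + q - z` misses `a` and `b`. -/
theorem Irr.par_miss (h : Irr U T) {z V q : ℂ} {a b : Fin 6} {τ : ℝ}
    (ha : a ∈ T z) (hb' : b ∈ T z) (hVz : dist V z = 1) (hqz : dist q z = 1) (hne : q ≠ V)
    (hanti : q + V ≠ 2 * z) (hx : ∀ᶠ t : ℝ in 𝓝[>] 0, T (hb z V τ t) = {a, b}) :
    ∀ᶠ t : ℝ in 𝓝[>] 0, a ∉ T (hb q (V + q - z) τ t) ∧ b ∉ T (hb q (V + q - z) τ t) := by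
  have hpar : ∀ t : ℝ, hb q (V + q - z) τ t = q + hb z V τ t - z := by
    intro t; unfold hb; ring
  have h1 : ∀ᶠ t : ℝ in 𝓝[>] 0, q + hb z V τ t ≠ 2 * z := by
    have h2 : ∀ᶠ x in 𝓝 V, q + x ≠ 2 * z :=
      (isOpen_ne_fun (continuous_const.add continuous_id) continuous_const).mem_nhds hanti
    exact (tendsto_hb z V τ).eventually h2
  have h1' : ∀ᶠ t : ℝ in 𝓝[>] 0, hb z V τ t ≠ q := by
    have h2 : ∀ᶠ x in 𝓝 V, x ≠ q := isOpen_ne.mem_nhds hne.symm
    exact (tendsto_hb z V τ).eventually h2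
  filter_upwards [hx, h1, h1'] with t ht1 ht2 ht3
  set x := hb z V τ t with hxd
  have hxz : dist x z = 1 := dist_hb hVz τ t
  rw [hpar, ← hxd]
  have hxy : dist x (q + x - z) = 1 := by
    rw [← hqz, dist_eq_norm, dist_eq_norm, ← norm_neg]; congr 1; ring
  have k1 : q + x - z ≠ z := by
    intro hcon; apply ht2; linear_combination hcon
  have k2 : q + x - z + z ≠ 2 * x := by
    intro hcon; apply ht3; linear_combination -hcon
  have hTx : T x ⊆ {a, b} := by rw [ht1]
  have hTx' : T x ⊆ {b, a} := by rw [ht1, Set.pair_comm]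
  constructor
  · intro hi
    rcases h.lemmaB hTx' hxz hxy (h.sub _ hb') (h.sub _ hi) with h4 | h4
    · exact k1 h4
    · exact k2 h4
  · intro hi
    rcases h.lemmaB hTx hxz hxy (h.sub _ ha) (h.sub _ hi) with h4 | h4
    · exact k1 h4
    · exact k2 h4

/-- colours carried by a half branch belong to the point -/
theorem Irr.mem_of_hb (h : Irr U T) {z v : ℂ} {τ : ℝ} {i : Fin 6}
    (hi : ∀ᶠ t : ℝ in 𝓝[>] 0, i ∈ T (hb z v τ t)) : i ∈ T v := by
  by_contra hcon
  have h2 : ∀ᶠ x in 𝓝 v, i ∉ T x := (h.nhd v).mono fun x hx hix => hcon (hx hix)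
  obtain ⟨t, h3, h4⟩ := (hi.and ((tendsto_hb z v τ).eventually h2)).exists
  exact h4 h3

/-- the palette of a three-coloured point has three colours at most -/
theorem card3_le {M : Set (Fin 6)} {a b c : Fin 6} (hM : M = {a, b, c}) : M.ncard ≤ 3 := by
  rw [hM]
  refine (Set.ncard_insert_le _ _).trans ?_
  have := Set.ncard_insert_le b ({c} : Set (Fin 6))
  rw [Set.ncard_singleton] at this
  omega

/-- a three-coloured point of `S(V)`, `V = ac|be`, whose palette lies in `T V` does not exist -/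
theorem Irr.no_three_in (h : Irr U T) {V w : ℂ} {a c b e : Fin 6} (hV : DPt T V a c b e)
    (hwV : dist w V = 1) (h3 : (T w).ncard ≤ 3) (hb' : b ∈ T w) (he : e ∈ T w)
    (hac : a ∈ T w ∨ c ∈ T w) : False := by
  obtain ⟨p0, hp0⟩ := hV.arc1
  obtain ⟨p, hp, hp1, hp2, -, -⟩ := hp0.exists_off_two (y := w) (y' := w)
  have hTp : T p = {a, c} := hp.2.self_of_nhdsWithin hp.1
  rcases hac with ha | hc
  · refine h.third_notMem (z := V) (v := w) (q := p) (d := c) hwV h3 ?_ hp.1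
      (h.sub _ (by rw [hTp]; simp)) hp1 hp2
    rw [hV.pal]
    rintro j (rfl | rfl | rfl | rfl)
    · exact Or.inr ha
    · exact Or.inl rfl
    · exact Or.inr hb'
    · exact Or.inr he
  · refine h.third_notMem (z := V) (v := w) (q := p) (d := a) hwV h3 ?_ hp.1
      (h.sub _ (by rw [hTp]; simp)) hp1 hp2
    rw [hV.pal]
    rintro j (rfl | rfl | rfl | rfl)
    · exact Or.inl rfl
    · exact Or.inr hc
    · exact Or.inr hb'
    · exact Or.inr he

/-- a letter with two colours gives a two-coloured point -/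
theorem Lt.point {z p : ℂ} {o : Set (Fin 6)} (ho : Lt T z p o) : ∃ y, dist y z = 1 ∧ T y = o := by
  obtain ⟨y, hy⟩ := ho.exists
  exact ⟨y, hy.1, hy.2.self_of_nhdsWithin hy.1⟩

/-- the letter of `S(w)` at the three-coloured neighbour `q = {c, d, f}`, `z ∈ S(q)` with `d ∈ T z`,
`c, f ∈ T w`, `d ∉ T w`: the pair `cf` -/
theorem Irr.rh_pair (h : Irr U T) {z w q : ℂ} {f m l' : Fin 6} (hwq : dist w q = 1)
    (hqz : dist q z = 1) (hwz : w ≠ z) (hwz2 : z + w ≠ 2 * q) (hl' : l' ∈ T z)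
    (hq : T q = {l', m, f}) (hfm : f ≠ m) (hfw : f ∈ T w) (hmw : m ∈ T w) :
    Lt T w q {f, m} := by
  obtain ⟨o, ho, hlo⟩ := h.apex (z := w) (y := z) (p := q) (by rw [dist_comm]; exact hwq) hqz
    hwz.symm hwz2 hl'
  have hoq := h.lt_sub ho
  have hsub : o ⊆ {f, m} := by
    intro j hj
    have h5 := hoq hj
    rw [hq] at h5
    rcases h5 with rfl | rfl | rfl
    · exact absurd hj hlo
    · simp
    · simp
  have hsw : o ⊆ T w := by
    intro j hj
    rcases hsub hj with rfl | rfl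
    · exact hfw
    · exact hmw
  have h2o := (h.lt_two ho hsw).1
  have hoe : o = {f, m} := Set.eq_of_subset_of_ncard_le hsub (by
    rw [Set.ncard_pair hfm]; exact h2o) (Set.toFinite _)
  rw [hoe] at ho
  exact ho

/-- equality of palettes, six colours -/
theorem ext6 {a b c d e f : Fin 6} (hnd : [a, b, c, d, e, f].Nodup) {M N : Set (Fin 6)}
    (ha : a ∈ M ↔ a ∈ N) (hb' : b ∈ M ↔ b ∈ N) (hc : c ∈ M ↔ c ∈ N) (hd : d ∈ M ↔ d ∈ N)
    (he : e ∈ M ↔ e ∈ N) (hf : f ∈ M ↔ f ∈ N) : M = N := by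
  ext i
  rcases all_six hnd i with rfl | rfl | rfl | rfl | rfl | rfl <;> assumption

/-- four distinct colours -/
theorem ncard4 {a b c d : Fin 6} (h1 : a ≠ b) (h2 : a ≠ c) (h3 : a ≠ d) (h4 : b ≠ c) (h5 : b ≠ d)
    (h6 : c ≠ d) : ({a, b, c, d} : Set (Fin 6)).ncard = 4 := by
  rw [Set.ncard_insert_of_notMem (by simp [h1, h2, h3]),
    Set.ncard_insert_of_notMem (by simp [h4, h5]), Set.ncard_pair h6]

/-- five distinct colours are too many -/
theorem no_five {M : Set (Fin 6)} (hM : M.ncard ≤ 4) {a b c d e : Fin 6} (ha : a ∈ M) (hb : b ∈ M)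
    (hc : c ∈ M) (hd : d ∈ M) (he : e ∈ M) (h0 : e ≠ a ∧ e ≠ b ∧ e ≠ c ∧ e ≠ d) (h1 : a ≠ b)
    (h2 : a ≠ c) (h3 : a ≠ d) (h4 : b ≠ c) (h5 : b ≠ d) (h6 : c ≠ d) : False := by
  have h7 := eq_four hM ha hb hc hd h1 h2 h3 h4 h5 h6
  rw [h7] at he
  rcases he with h8 | h8 | h8 | h8
  · exact h0.1 h8
  · exact h0.2.1 h8
  · exact h0.2.2.1 h8
  · exact h0.2.2.2 h8

/-- two-coloured points of `S(w)` with exactly one common colour, palettes inside `T w` -/
theorem Irr.no_meet (h : Irr U T) (hmin : Mn U T) {w y1 y2 : ℂ} {c f x : Fin 6}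
    (h4 : (T w).ncard = 4) (hy1 : dist y1 w = 1) (hy2 : dist y2 w = 1) (hT1 : T y1 = {c, f})
    (hT2 : T y2 = {x, c}) (hc : c ∈ T w) (hf : f ∈ T w) (hx : x ∈ T w) (hcf : c ≠ f)
    (hxc : x ≠ c) (hxf : x ≠ f) : False := by
  have h7 := h.pairs_disjoint hmin h4 hy1 hy2
    (by
      rw [hT1]
      rintro j (rfl | rfl) <;> assumption)
    (by
      rw [hT2]
      rintro j (rfl | rfl) <;> assumption)
    (by rw [hT1]; exact Set.ncard_pair hcf)
    (by rw [hT2]; exact Set.ncard_pair hxc)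
  rw [hT1, hT2] at h7
  rcases h7 with h7 | h7
  · have h8 : x ∈ ({c, f} : Set (Fin 6)) := by rw [h7]; simp
    rcases h8 with h8 | h8
    · exact hxc h8
    · exact hxf h8
  · exact (Set.disjoint_left.1 h7 (show c ∈ ({c, f} : Set (Fin 6)) by simp)) (by simp)

/-- the case `f ∉ T w` -/
theorem Irr.rhD_nf (h : Irr U T) {V w : ℂ} {a b c d e f : Fin 6}
    (hnd : [a, b, c, d, e, f].Nodup) (hV : DPt T V a c b e) (hwV : dist w V = 1)
    (hw4 : (T w).ncard ≤ 4) (hnoab : ∀ τ : ℝ, (τ = 1 ∨ τ = -1) →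
      ¬ ∀ᶠ t : ℝ in 𝓝[>] 0, T (hb w V τ t) = {b, a}) (hfw : f ∉ T w) (hbw : b ∈ T w)
    (hew : e ∈ T w) :
    T w = {b, e} ∨ T w = {b, d, e} ∨ T w = T V ∨
      (T w = {a, b, d, e} ∧ ∃ τ, Delta4 U T V w e b a c d τ) ∨
      (T w = {b, c, d, e} ∧ ∃ τ, Delta4 U T V w b e c a d τ ∨ Delta4 U T V w e b c a d τ) := by
  obtain ⟨⟨nab, nac, nad, nae, naf, nbc, nbd, nbe, nbf, ncd, nce, ncf, nde, ndf, nef⟩, -⟩ :=
    nd6 hnd
  by_cases haw : a ∈ T w
  · by_cases hcw : c ∈ T w
    · right; right; left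
      rw [hV.pal]
      exact eq_four hw4 haw hcw hbw hew nac nab nae nbc.symm nce nbe
    · by_cases hdw : d ∈ T w
      · right; right; right; left
        have hTw : T w = {a, b, d, e} := eq_four hw4 haw hbw hdw hew nab nad nae nbd nbe nde
        refine ⟨hTw, ?_⟩
        obtain ⟨τ, D | D⟩ := h.germ_delta4 hV.swap hwV (e := d)
          (eq_four hw4 hbw hew haw hdw nbe nab.symm nbd nae.symm nde.symm nad)
        · exact absurd D.exact (hnoab τ D.sgn)
        · exact ⟨τ, D⟩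
      · exfalso
        have h3 : T w = {a, b, e} := by
          refine ext6 hnd ?_ ?_ ?_ ?_ ?_ ?_
          · simp [haw]
          · simp [hbw]
          · simp [hcw, nac.symm, nbc.symm, nce]
          · simp [hdw, nad.symm, nbd.symm, nde]
          · simp [hew]
          · simp [hfw, naf.symm, nbf.symm, nef.symm]
        exact h.no_three_in hV hwV (card3_le h3) hbw hew (Or.inl haw)
  · by_cases hcw : c ∈ T w
    · by_cases hdw : d ∈ T w
      · right; right; right; right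
        have hTw : T w = {b, c, d, e} := eq_four hw4 hbw hcw hdw hew nbc nbd nbe ncd nce nde
        refine ⟨hTw, ?_⟩
        exact h.germ_delta4 hV.swap.swap34 hwV (e := d)
          (eq_four hw4 hbw hew hcw hdw nbe nbc nbd nce.symm nde.symm ncd)
      · exfalso
        have h3 : T w = {b, c, e} := by
          refine ext6 hnd ?_ ?_ ?_ ?_ ?_ ?_
          · simp [haw, nab, nac, nae]
          · simp [hbw]
          · simp [hcw]
          · simp [hdw, nbd.symm, ncd.symm, nde]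
          · simp [hew]
          · simp [hfw, nbf.symm, ncf.symm, nef.symm]
        exact h.no_three_in hV hwV (card3_le h3) hbw hew (Or.inr hcw)
    · by_cases hdw : d ∈ T w
      · right; left
        refine ext6 hnd ?_ ?_ ?_ ?_ ?_ ?_
        · simp [haw, nab, nad, nae]
        · simp [hbw]
        · simp [hcw, nbc.symm, ncd, nce]
        · simp [hdw]
        · simp [hew]
        · simp [hfw, nbf.symm, ndf.symm, nef.symm]
      · left
        refine ext6 hnd ?_ ?_ ?_ ?_ ?_ ?_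
        · simp [haw, nab, nae]
        · simp [hbw]
        · simp [hcw, nbc.symm, nce]
        · simp [hdw, nbd.symm, nde]
        · simp [hew]
        · simp [hfw, nbf.symm, nef.symm]

/-- the case `f ∈ T w` -/
theorem Irr.rhD_f (h : Irr U T) (hmin : Mn U T) {V w q : ℂ} {a b c d e f : Fin 6}
    (hnd : [a, b, c, d, e, f].Nodup) (hV : DPt T V a c b e) (hwV : dist w V = 1)
    (hw4 : (T w).ncard ≤ 4) (hnoab : ∀ τ : ℝ, (τ = 1 ∨ τ = -1) →
      ¬ ∀ᶠ t : ℝ in 𝓝[>] 0, T (hb w V τ t) = {b, a}) (hfw : f ∈ T w) (hew : e ∈ T w)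
    (hab : a ∈ T w ∨ b ∈ T w) (hR1 : d ∈ T w ∨ (a ∈ T w ∧ c ∈ T w) ∨ b ∈ T w)
    (hLc : c ∈ T w → Lt T w q {c, f}) (hLd : d ∈ T w → Lt T w q {d, f}) :
    T w = {b, e, f} ∨ (T w = {a, b, e, f} ∧ ∃ τ, Delta4 U T V w e b a c f τ) ∨
      (DPt T w a e c f ∧ Lt T w q {c, f} ∧ ∃ τ, Delta4 U T V w a c e b f τ) ∨
      ((T w = {a, e, d, f} ∨ T w = {b, e, d, f}) ∧ Lt T w q {d, f}) := by
  obtain ⟨⟨nab, nac, nad, nae, naf, nbc, nbd, nbe, nbf, ncd, nce, ncf, nde, ndf, nef⟩, -⟩ :=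
    nd6 hnd
  have hVw : dist V w = 1 := by rw [dist_comm]; exact hwV
  by_cases hdw : d ∈ T w
  · right; right; right
    refine ⟨?_, hLd hdw⟩
    rcases hab with h1 | h1
    · left
      exact eq_four hw4 h1 hew hdw hfw nae nad naf nde.symm nef ndf
    · right
      exact eq_four hw4 h1 hew hdw hfw nbe nbd nbf nde.symm nef ndf
  · by_cases hbw : b ∈ T w
    · by_cases haw : a ∈ T w
      · right; left
        have hTw : T w = {a, b, e, f} := eq_four hw4 haw hbw hew hfw nab nae naf nbe nbf nef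
        refine ⟨hTw, ?_⟩
        obtain ⟨τ, D | D⟩ := h.germ_delta4 hV.swap hwV (e := f)
          (eq_four hw4 hbw hew haw hfw nbe nab.symm nbf nae.symm nef naf)
        · exact absurd D.exact (hnoab τ D.sgn)
        · exact ⟨τ, D⟩
      · by_cases hcw : c ∈ T w
        · exfalso
          have hTw : T w = {b, e, c, f} := eq_four hw4 hbw hew hcw hfw nbe nbc nbf nce.symm
            nef ncf
          obtain ⟨y, hy1, hy2⟩ := (hLc hcw).point
          have hw4' : (T w).ncard = 4 := by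
            rw [hTw]; exact ncard4 nbe nbc nbf nce.symm nef ncf
          obtain ⟨τ, D | D⟩ := h.germ_delta4 hV.swap.swap34 hwV (e := f) hTw
          · obtain ⟨t, ht⟩ := D.exact.exists
            exact h.no_meet hmin hw4' hy1 (dist_hb hVw τ t) hy2 ht hcw hfw hbw ncf nbc nbf
          · obtain ⟨t, ht⟩ := D.exact.exists
            exact h.no_meet hmin hw4' hy1 (dist_hb hVw τ t) hy2 ht hcw hfw hew ncf nce.symm nef
        · left
          refine ext6 hnd ?_ ?_ ?_ ?_ ?_ ?_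
          · simp [haw, nab, nae, naf]
          · simp [hbw]
          · simp [hcw, nbc.symm, nce, ncf]
          · simp [hdw, nbd.symm, nde, ndf]
          · simp [hew]
          · simp [hfw]
    · have haw : a ∈ T w := by tauto
      have hcw : c ∈ T w := by tauto
      right; right; left
      have hTw : T w = {a, c, e, f} := eq_four hw4 haw hcw hew hfw nac nae naf nce ncf nef
      have hw4' : (T w).ncard = 4 := by
        rw [hTw]; exact ncard4 nac nae naf nce ncf nef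
      have hL := hLc hcw
      obtain ⟨y, hy⟩ := hL.exists
      have hy2 : T y = {c, f} := hy.2.self_of_nhdsWithin hy.1
      obtain ⟨τ, D | D⟩ := h.germ_delta4 hV.swap34 hwV (e := f) hTw
      · refine ⟨?_, hL, τ, D⟩
        obtain ⟨s, hs⟩ := (h.arcs_of_exact (a := a) (b := e) nae haw hew hVw D.exact).exists
        exact ⟨by rw [hTw, Set.insert_comm c e], nac, naf, nce.symm, nef, nae, ncf, ⟨_, hs⟩,
          ⟨_, hy⟩⟩
      · obtain ⟨t, ht⟩ := D.exact.exists
        exact (h.no_meet hmin hw4' hy.1 (dist_hb hVw τ t) hy2 (by rw [ht, Set.pair_comm]) hcw hfw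
          hew ncf nce.symm nef).elim

/-- **Rhombus at a delta hub, complementary letters.**  `z = ab|cd`, an exact `ab`-half branch of
`S(z)` ends at `V = ac|be`, an exact `cd`-half branch of `S(z)` ends at `q` with `T q = {c, d, f}`,
`w = V + q - z`. -/
theorem Irr.rhD (h : Irr U T) (hmin : Mn U T) {z V q : ℂ} {a b c d e f : Fin 6} {τ0 τJ : ℝ}
    (hnd : [a, b, c, d, e, f].Nodup) (hz : DPt T z a b c d) (hV : DPt T V a c b e)
    (hVz : dist V z = 1) (hqz : dist q z = 1) (hTq : T q = {c, d, f})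
    (hτ0 : τ0 = 1 ∨ τ0 = -1) (hx0 : ∀ᶠ t : ℝ in 𝓝[>] 0, T (hb z V τ0 t) = {a, b})
    (hτJ : τJ = 1 ∨ τJ = -1) (hJ : ∀ᶠ t : ℝ in 𝓝[>] 0, T (hb z q τJ t) = {c, d})
    (hw4 : (T (V + q - z)).ncard ≤ 4) :
    (∀ᶠ t : ℝ in 𝓝[>] 0, e ∈ T (hb q (V + q - z) τ0 t)) ∧
    ((f ∉ T (V + q - z) ∧ (∀ᶠ t : ℝ in 𝓝[>] 0, T (hb V (V + q - z) τJ t) = {b, e}) ∧
      (T (V + q - z) = {b, e} ∨ T (V + q - z) = {b, d, e} ∨ T (V + q - z) = T V ∨
        (T (V + q - z) = {a, b, d, e} ∧ ∃ τ, Delta4 U T V (V + q - z) e b a c d τ) ∨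
        (T (V + q - z) = {b, c, d, e} ∧ ∃ τ, Delta4 U T V (V + q - z) b e c a d τ ∨
          Delta4 U T V (V + q - z) e b c a d τ))) ∨
     (f ∈ T (V + q - z) ∧
      (T (V + q - z) = {b, e, f} ∨
        (T (V + q - z) = {a, b, e, f} ∧ ∃ τ, Delta4 U T V (V + q - z) e b a c f τ) ∨
        (DPt T (V + q - z) a e c f ∧ Lt T (V + q - z) q {c, f} ∧
          ∃ τ, Delta4 U T V (V + q - z) a c e b f τ) ∨
        ((T (V + q - z) = {a, e, d, f} ∨ T (V + q - z) = {b, e, d, f}) ∧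
          Lt T (V + q - z) q {d, f})))) := by
  obtain ⟨⟨nab, nac, nad, nae, naf, nbc, nbd, nbe, nbf, ncd, nce, ncf, nde, ndf, nef⟩, -⟩ :=
    nd6 hnd
  have haV : a ∈ T V := by rw [hV.pal]; simp
  have hbV : b ∈ T V := by rw [hV.pal]; simp
  have heV : e ∈ T V := by rw [hV.pal]; simp
  have haz : a ∈ T z := by rw [hz.pal]; simp
  have hbz : b ∈ T z := by rw [hz.pal]; simp
  have hcz : c ∈ T z := by rw [hz.pal]; simp
  have hdz : d ∈ T z := by rw [hz.pal]; simp
  have hcq : c ∈ T q := by rw [hTq]; simp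
  have hdq : d ∈ T q := by rw [hTq]; simp
  have hfq : f ∈ T q := by rw [hTq]; simp
  have hne : q ≠ V := by
    rintro rfl
    rw [hTq] at haV
    rcases haV with h1 | h1 | h1
    · exact nac h1
    · exact nad h1
    · exact naf h1
  have hanti := h.rh_anti hz hVz hqz haV hbV hcq hdq hne
  obtain ⟨hwV, hwq, hwz, hne2⟩ := rh4_geo hVz hqz hanti
  have hmissA := h.par_miss haz hbz hVz hqz hne hanti hx0
  have hmissJ := h.par_miss (V := q) (q := V) hcz hdz hqz hVz hne.symm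
    (by rw [add_comm]; exact hanti) hJ
  rw [show q + V - z = V + q - z by ring] at hmissJ
  have hndV : [a, c, b, e, d, f].Nodup := by
    simp only [List.nodup_cons, List.mem_cons, List.not_mem_nil, not_or, not_false_eq_true,
      or_false, and_true, List.nodup_nil]
    exact ⟨⟨nac, nab, nae, nad, naf⟩, ⟨nbc.symm, nce, ncd, ncf⟩, ⟨nbe, nbd, nbf⟩,
      ⟨nde.symm, nef⟩, ndf⟩
  have hrow := fun t (ht : t ∈ T q) => h.row hndV hV hwV hwq hne hne2 ht
  set w := V + q - z with hw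
  have hwz2 : w + z ≠ 2 * V := by
    intro hcon
    apply hne
    rw [hw] at hcon
    linear_combination hcon
  have hwz3 : z + w ≠ 2 * q := by
    intro hcon
    apply hne
    rw [hw] at hcon
    linear_combination -hcon
  have hVw : dist V w = 1 := by rw [dist_comm]; exact hwV
  have hq3 : (T q).ncard ≤ 3 := card3_le hTq
  have heh : ∀ᶠ t : ℝ in 𝓝[>] 0, e ∈ T (hb q w τ0 t) := by
    filter_upwards [hmissA] with t ht
    obtain ⟨i, hi, hiq⟩ := h.not_sub' (x := q) (y := hb q w τ0 t) (dist_hb hwq τ0 t) hq3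
    rw [hTq] at hiq
    simp only [mem_insert_iff, mem_singleton_iff, not_or] at hiq
    rcases all_six hnd i with rfl | rfl | rfl | rfl | rfl | rfl
    · exact absurd hi ht.1
    · exact absurd hi ht.2
    · exact absurd rfl hiq.1
    · exact absurd rfl hiq.2.1
    · exact hi
    · exact absurd rfl hiq.2.2
  have hew : e ∈ T w := h.mem_of_hb heh
  refine ⟨heh, ?_⟩
  have hab : a ∈ T w ∨ b ∈ T w := by
    obtain ⟨i, hiw, hiq, hie⟩ := h.apex_three hwq hwV hne.symm (by rw [add_comm]; exact hne2) hq3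
      heV
    rw [hTq] at hiq
    simp only [mem_insert_iff, mem_singleton_iff, not_or] at hiq
    rcases all_six hnd i with rfl | rfl | rfl | rfl | rfl | rfl
    · exact Or.inl hiw
    · exact Or.inr hiw
    · exact absurd rfl hiq.1
    · exact absurd rfl hiq.2.1
    · exact absurd rfl hie
    · exact absurd rfl hiq.2.2
  have hR1 : d ∈ T w ∨ (a ∈ T w ∧ c ∈ T w) ∨ b ∈ T w := by
    rcases hrow f hfq with h1 | h1 | h1 | h1
    · exact Or.inl h1.1
    · exact absurd rfl h1.2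
    · exact Or.inr (Or.inl ⟨h1.1, h1.2.1⟩)
    · exact Or.inr (Or.inr h1.1)
  -- no exact `ab` half branch of `S(w)` at `V`
  have hnoab : ∀ τ : ℝ, (τ = 1 ∨ τ = -1) → ¬ ∀ᶠ t : ℝ in 𝓝[>] 0, T (hb w V τ t) = {b, a} := by
    intro τ hτ hx
    have hxa : ∀ᶠ t : ℝ in 𝓝[>] 0, a ∈ T (hb w V τ t) := hx.mono fun t ht => by rw [ht]; simp
    have hxb : ∀ᶠ t : ℝ in 𝓝[>] 0, b ∈ T (hb w V τ t) := hx.mono fun t ht => by rw [ht]; simp
    rcases h.sides hz hVz with hs | hs
    · exact h.wall_unique hτ hVz hVw hwz hwz2 haz hbz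
        (h.sd_end hz.ab haz hbz hVz hτ0 hx0 hs) hxa hxb
    · exact h.wall_unique hτ hVz hVw hwz hwz2 hbz haz
        (h.sd_end hz.ab.symm hbz haz hVz hτ0 (by rwa [Set.pair_comm]) hs) hxb hxa
  by_cases hfw : f ∈ T w
  · right
    refine ⟨hfw, ?_⟩
    have hLt : ∀ m l', (m = c ∧ l' = d ∨ m = d ∧ l' = c) → m ∈ T w → Lt T w q {m, f} := by
      intro m l' hm hmw
      have h1 : T q = {l', m, f} := by
        rcases hm with ⟨rfl, rfl⟩ | ⟨rfl, rfl⟩
        · rw [hTq, Set.insert_comm]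
        · exact hTq
      have h2 : l' ∈ T z := by rcases hm with ⟨rfl, rfl⟩ | ⟨rfl, rfl⟩ <;> assumption
      have h3 : f ≠ m := by
        rcases hm with ⟨rfl, rfl⟩ | ⟨rfl, rfl⟩
        · exact ncf.symm
        · exact ndf.symm
      rw [Set.pair_comm]
      exact h.rh_pair hwq hqz hwz hwz3 h2 h1 h3 hfw hmw
    exact h.rhD_f hmin hnd hV hwV hw4 hnoab hfw hew hab hR1 (hLt c d (Or.inl ⟨rfl, rfl⟩))
      (hLt d c (Or.inr ⟨rfl, rfl⟩))
  · left
    have hex : ∀ᶠ t : ℝ in 𝓝[>] 0, T (hb V w τJ t) = {b, e} := by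
      refine h.half_exact hV.swap hwV hτJ ?_ ?_
      · filter_upwards [hmissJ, (tendsto_hb V w τJ).eventually (h.nhd w)] with t h1 h2 i hi
        rw [hV.pal]
        rcases all_six hnd i with rfl | rfl | rfl | rfl | rfl | rfl
        · simp
        · simp
        · simp
        · exact absurd hi h1.2
        · simp
        · exact absurd (h2 hi) hfw
      · filter_upwards [hmissJ] with t h1 h2
        apply h1.1
        rw [h2.2.self_of_nhdsWithin h2.1]
        simp
    have hbw : b ∈ T w := h.mem_of_hb (hex.mono fun t ht => by rw [ht]; simp)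
    exact ⟨hfw, hex, h.rhD_nf hnd hV hwV hw4 hnoab hfw hbw hew⟩

end Vale.Agent.P032.Six
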