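import Vale.Agent.P032.H249.RhD

/-!
# P032: the rhombus at a delta hub, same letter

Frame `Irr U T`, six colours, `T` minimal.  `z = ab|cd`, an exact `ab`-arc of `S(z)` ends at the
two-pair point `V = ac|be`, an exact `cd`-arc of `S(z)` ends at `q` with `T q = {c, d, e}`,
`w = V + q - z`.
-/

open Set Filter Topology Metric

noncomputable section

namespace Vale.Agent.P032.Six

variable {U : Fin 6 → Set ℂ} {T : ℂ → Set (Fin 6)}

/-- no exact `ab`-half branch of another circle at the end `V` of an exact `ab`-half branch of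
`S(z)` -/
theorem Irr.no_wall (h : Irr U T) {z V w : ℂ} {a b c d : Fin 6} {τ0 : ℝ} (hz : DPt T z a b c d)
    (hVz : dist V z = 1) (hτ0 : τ0 = 1 ∨ τ0 = -1)
    (hx0 : ∀ᶠ t : ℝ in 𝓝[>] 0, T (hb z V τ0 t) = {a, b}) (hVw : dist V w = 1) (hwz : w ≠ z)
    (hwz2 : w + z ≠ 2 * V) {τ : ℝ} (hτ : τ = 1 ∨ τ = -1)
    (hxa : ∀ᶠ t : ℝ in 𝓝[>] 0, a ∈ T (hb w V τ t))
    (hxb : ∀ᶠ t : ℝ in 𝓝[>] 0, b ∈ T (hb w V τ t)) : False := by
  have haz : a ∈ T z := by rw [hz.pal]; simp
  have hbz : b ∈ T z := by rw [hz.pal]; simp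
  rcases h.sides hz hVz with hs | hs
  · exact h.wall_unique hτ hVz hVw hwz hwz2 haz hbz
      (h.sd_end hz.ab haz hbz hVz hτ0 hx0 hs) hxa hxb
  · exact h.wall_unique hτ hVz hVw hwz hwz2 hbz haz
      (h.sd_end hz.ab.symm hbz haz hVz hτ0 (by rwa [Set.pair_comm]) hs) hxb hxa

/-- **Rhombus at a delta hub, same letter.** -/
theorem Irr.rhD5 (h : Irr U T) (hmin : Mn U T) {z V q : ℂ} {a b c d e f : Fin 6} {τ0 τJ : ℝ}
    (hnd : [a, b, c, d, e, f].Nodup) (hz : DPt T z a b c d) (hV : DPt T V a c b e)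
    (hVz : dist V z = 1) (hqz : dist q z = 1) (hTq : T q = {c, d, e})
    (hτ0 : τ0 = 1 ∨ τ0 = -1) (hx0 : ∀ᶠ t : ℝ in 𝓝[>] 0, T (hb z V τ0 t) = {a, b})
    (hJ : ∀ᶠ t : ℝ in 𝓝[>] 0, T (hb z q τJ t) = {c, d})
    (hw4 : (T (V + q - z)).ncard ≤ 4) :
    (∀ᶠ t : ℝ in 𝓝[>] 0, f ∈ T (hb q (V + q - z) τ0 t)) ∧
    (∀ᶠ t : ℝ in 𝓝[>] 0, c ∉ T (hb V (V + q - z) τJ t) ∧ d ∉ T (hb V (V + q - z) τJ t)) ∧
    (b ∈ T (V + q - z) → e ∈ T (V + q - z) →
      (T (V + q - z) = {b, e, f} ∨
        (T (V + q - z) = {a, b, e, f} ∧ ∃ τ, Delta4 U T V (V + q - z) e b a c f τ) ∨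
        (T (V + q - z) = {b, c, e, f} ∧ Lt T (V + q - z) q {c, e} ∧
          ∃ τ, Delta4 U T V (V + q - z) e b c a f τ) ∨
        (T (V + q - z) = {b, d, e, f} ∧ Lt T (V + q - z) q {d, e}))) ∧
    (a ∈ T (V + q - z) → c ∈ T (V + q - z) →
      (T (V + q - z) = {a, c, f} ∨
        (T (V + q - z) = {a, b, c, f} ∧ ∃ τ, Delta4 U T V (V + q - z) c a b e f τ) ∨
        (T (V + q - z) = {a, c, e, f} ∧ Lt T (V + q - z) q {c, e} ∧
          ∃ τ, Delta4 U T V (V + q - z) c a e b f τ) ∨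
        T (V + q - z) = {a, c, d, f})) := by
  obtain ⟨⟨nab, nac, nad, nae, naf, nbc, nbd, nbe, nbf, ncd, nce, ncf, nde, ndf, nef⟩, -⟩ :=
    nd6 hnd
  have haV : a ∈ T V := by rw [hV.pal]; simp
  have hbV : b ∈ T V := by rw [hV.pal]; simp
  have haz : a ∈ T z := by rw [hz.pal]; simp
  have hbz : b ∈ T z := by rw [hz.pal]; simp
  have hcz : c ∈ T z := by rw [hz.pal]; simp
  have hdz : d ∈ T z := by rw [hz.pal]; simp
  have hcq : c ∈ T q := by rw [hTq]; simp
  have hdq : d ∈ T q := by rw [hTq]; simp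
  have hne : q ≠ V := by
    rintro rfl
    rw [hTq] at haV
    rcases haV with h1 | h1 | h1
    · exact nac h1
    · exact nad h1
    · exact nae h1
  have hanti := h.rh_anti hz hVz hqz haV hbV hcq hdq hne
  obtain ⟨hwV, hwq, hwz, hne2⟩ := rh4_geo hVz hqz hanti
  have hmissA := h.par_miss haz hbz hVz hqz hne hanti hx0
  have hmissJ := h.par_miss (V := q) (q := V) hcz hdz hqz hVz hne.symm
    (by rw [add_comm]; exact hanti) hJ
  rw [show q + V - z = V + q - z by ring] at hmissJ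
  set w := V + q - z with hw
  have hwz2 : w + z ≠ 2 * V := by
    intro hcon
    apply hne
    rw [hw] at hcon
    linear_combination hcon
  have hwz3 : z + w ≠ 2 * q := by
    intro hcon
    apply hne
    rw [hw] at hcon
    linear_combination -hcon
  have hVw : dist V w = 1 := by rw [dist_comm]; exact hwV
  have hq3 : (T q).ncard ≤ 3 := card3_le hTq
  have hfh : ∀ᶠ t : ℝ in 𝓝[>] 0, f ∈ T (hb q w τ0 t) := by
    filter_upwards [hmissA] with t ht
    obtain ⟨i, hi, hiq⟩ := h.not_sub' (x := q) (y := hb q w τ0 t) (dist_hb hwq τ0 t) hq3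
    rw [hTq] at hiq
    simp only [mem_insert_iff, mem_singleton_iff, not_or] at hiq
    rcases all_six hnd i with rfl | rfl | rfl | rfl | rfl | rfl
    · exact absurd hi ht.1
    · exact absurd hi ht.2
    · exact absurd rfl hiq.1
    · exact absurd rfl hiq.2.1
    · exact absurd rfl hiq.2.2
    · exact hi
  have hfw : f ∈ T w := h.mem_of_hb hfh
  have hLt : ∀ m l', (m = c ∧ l' = d ∨ m = d ∧ l' = c) → m ∈ T w → e ∈ T w →
      Lt T w q {m, e} := by
    intro m l' hm hmw hew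
    have h1 : T q = {l', m, e} := by
      rcases hm with ⟨rfl, rfl⟩ | ⟨rfl, rfl⟩
      · rw [hTq, Set.insert_comm]
      · exact hTq
    have h2 : l' ∈ T z := by rcases hm with ⟨rfl, rfl⟩ | ⟨rfl, rfl⟩ <;> assumption
    have h3 : e ≠ m := by
      rcases hm with ⟨rfl, rfl⟩ | ⟨rfl, rfl⟩
      · exact nce.symm
      · exact nde.symm
    rw [Set.pair_comm]
    exact h.rh_pair hwq hqz hwz hwz3 h2 h1 h3 hew hmw
  have hnoab : ∀ τ : ℝ, (τ = 1 ∨ τ = -1) → (∀ᶠ t : ℝ in 𝓝[>] 0, T (hb w V τ t) = {a, b}) →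
      False := by
    intro τ hτ hx
    exact h.no_wall hz hVz hτ0 hx0 hVw hwz hwz2 hτ (hx.mono fun t ht => by rw [ht]; simp)
      (hx.mono fun t ht => by rw [ht]; simp)
  refine ⟨hfh, hmissJ, fun hbw hew => ?_, fun haw hcw => ?_⟩
  · by_cases haw : a ∈ T w
    · right; left
      refine ⟨eq_four hw4 haw hbw hew hfw nab nae naf nbe nbf nef, ?_⟩
      obtain ⟨τ, D | D⟩ := h.germ_delta4 hV.swap hwV (e := f)
        (eq_four hw4 hbw hew haw hfw nbe nab.symm nbf nae.symm nef naf)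
      · exact (hnoab τ D.sgn (by
          have := D.exact
          rwa [Set.pair_comm] at this)).elim
      · exact ⟨τ, D⟩
    · by_cases hcw : c ∈ T w
      · right; right; left
        have hTw : T w = {b, c, e, f} := eq_four hw4 hbw hcw hew hfw nbc nbe nbf nce ncf nef
        have hw4' : (T w).ncard = 4 := by
          rw [hTw]; exact ncard4 nbc nbe nbf nce ncf nef
        have hL := hLt c d (Or.inl ⟨rfl, rfl⟩) hcw hew
        refine ⟨hTw, hL, ?_⟩
        obtain ⟨y, hy1, hy2⟩ := hL.point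
        obtain ⟨τ, D | D⟩ := h.germ_delta4 hV.swap.swap34 hwV (e := f)
          (eq_four hw4 hbw hew hcw hfw nbe nbc nbf nce.symm nef ncf)
        · obtain ⟨t, ht⟩ := D.exact.exists
          exact (h.no_meet hmin hw4' hy1 (dist_hb hVw τ t) hy2 ht hcw hew hbw nce nbc nbe).elim
        · exact ⟨τ, D⟩
      · by_cases hdw : d ∈ T w
        · right; right; right
          exact ⟨eq_four hw4 hbw hdw hew hfw nbd nbe nbf nde ndf nef,
            hLt d c (Or.inr ⟨rfl, rfl⟩) hdw hew⟩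
        · left
          refine ext6 hnd ?_ ?_ ?_ ?_ ?_ ?_
          · simp [haw, nab, nae, naf]
          · simp [hbw]
          · simp [hcw, nbc.symm, nce, ncf]
          · simp [hdw, nbd.symm, nde, ndf]
          · simp [hew]
          · simp [hfw]
  · by_cases hbw : b ∈ T w
    · right; left
      refine ⟨eq_four hw4 haw hbw hcw hfw nab nac naf nbc nbf ncf, ?_⟩
      obtain ⟨τ, D | D⟩ := h.germ_delta4 hV hwV (e := f)
        (eq_four hw4 haw hcw hbw hfw nac nab naf nbc.symm ncf nbf)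
      · exact (hnoab τ D.sgn D.exact).elim
      · exact ⟨τ, D⟩
    · by_cases hew : e ∈ T w
      · right; right; left
        have hTw : T w = {a, c, e, f} := eq_four hw4 haw hcw hew hfw nac nae naf nce ncf nef
        have hw4' : (T w).ncard = 4 := by
          rw [hTw]; exact ncard4 nac nae naf nce ncf nef
        have hL := hLt c d (Or.inl ⟨rfl, rfl⟩) hcw hew
        refine ⟨hTw, hL, ?_⟩
        obtain ⟨y, hy1, hy2⟩ := hL.point
        obtain ⟨τ, D | D⟩ := h.germ_delta4 hV.swap34 hwV (e := f) hTw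
        · obtain ⟨t, ht⟩ := D.exact.exists
          exact (h.no_meet hmin hw4' hy1 (dist_hb hVw τ t) (by rw [hy2, Set.pair_comm]) ht hew
            hcw haw nce.symm nae nac).elim
        · exact ⟨τ, D⟩
      · by_cases hdw : d ∈ T w
        · right; right; right
          exact eq_four hw4 haw hcw hdw hfw nac nad naf ncd ncf ndf
        · left
          refine ext6 hnd ?_ ?_ ?_ ?_ ?_ ?_
          · simp [haw]
          · simp [hbw, nab.symm, nbc, nbf]
          · simp [hcw]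
          · simp [hdw, nad.symm, ncd.symm, ndf]
          · simp [hew, nae.symm, nce.symm, nef]
          · simp [hfw]

end Vale.Agent.P032.Six
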