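import Vale.Agent.P032.H249.Apex
import Vale.Agent.P032.H684.Side
import Vale.Agent.P032.H630.Germ4
import Vale.Agent.P032.H183.SdEnd

/-!
# P032: walls

Frame `Irr U T`.  `Irr.cur_out`, `Irr.cur_in` : a curve of colour `x` from `z`, in terms of `OutF`,
`InF`.  `Irr.sd_end` : sides at the centre with respect to the end of an exact half branch.
`Irr.wall_unique` : **one centre per wall**: if an exact half branch `ab` of `S(z)` ends at `V`
(`z` a two-pair point), then no other circle `S(w)` through `V` (not tangent to `S(z)`) carries `a`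
and `b` on a half branch at `V`.  No assumption on the palettes of `V` and `w`.
-/

open Set Filter Topology Metric

noncomputable section

namespace Vale.Agent.P032.Six

section general
variable {k : ℕ} {U : Fin k → Set ℂ} {T : ℂ → Set (Fin k)}

theorem outF_of_notU {z p : ℂ} {x : Fin k} (h : ∀ᶠ v in 𝓝 p, 1 < dist v z → v ∉ U x) :
    OutF U z p x := by
  unfold OutF
  filter_upwards [h.eventually_nhds] with v hv hvz hvx
  have h1 : {y : ℂ | 1 < dist y z} ∈ 𝓝 v :=
    (isOpen_lt continuous_const (continuous_id.dist continuous_const)).mem_nhds hvz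
  obtain ⟨y, hy, hyU⟩ := mem_closure_iff_nhds.1 hvx _ (inter_mem hv h1)
  exact hy.1 hy.2 hyU

theorem inF_of_notU {z p : ℂ} {x : Fin k} (h : ∀ᶠ v in 𝓝 p, dist v z < 1 → v ∉ U x) :
    InF U z p x := by
  unfold InF
  filter_upwards [h.eventually_nhds] with v hv hvz hvx
  have h1 : {y : ℂ | dist y z < 1} ∈ 𝓝 v :=
    (isOpen_lt (continuous_id.dist continuous_const) continuous_const).mem_nhds hvz
  obtain ⟨y, hy, hyU⟩ := mem_closure_iff_nhds.1 hvx _ (inter_mem hv h1)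
  exact hy.1 hy.2 hyU

theorem Irr.cur_out (h : Irr U T) {z p : ℂ} {x : Fin k} {g : ℝ → ℂ} {t0 : ℝ}
    (hg : XCur U z x g t0) (hlt : dist p (g t0) < 1) : OutF U z p x :=
  outF_of_notU (h.curve_out hg hlt)

theorem Irr.cur_in (h : Irr U T) {z p : ℂ} {x : Fin k} {g : ℝ → ℂ} {t0 : ℝ}
    (hg : XCur U z x g t0) (hlt : 1 < dist p (g t0)) : InF U z p x :=
  inF_of_notU (h.curve_in hg hlt)

/-- a half branch of `S(w)` at `V` in the colour `x`, `p ∈ S(V)`, the branch starts inside `S(p)` -/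
theorem Irr.br_out (h : Irr U T) {w V p : ℂ} {x : Fin k} {τ : ℝ}
    (hx : ∀ᶠ t : ℝ in 𝓝[>] 0, x ∈ T (hb w V τ t)) (hp : dist p V = 1)
    (hs : τ * sg w V p < 0) : OutF U V p x := by
  obtain ⟨t0, hc, hlt⟩ := h.branch_cur hx (hb_in hp hs)
  exact h.cur_out hc (by rw [dist_comm]; exact hlt)

/-- the branch starts outside `S(p)` -/
theorem Irr.br_in (h : Irr U T) {w V p : ℂ} {x : Fin k} {τ : ℝ}
    (hx : ∀ᶠ t : ℝ in 𝓝[>] 0, x ∈ T (hb w V τ t)) (hp : dist p V = 1)
    (hs : 0 < τ * sg w V p) : InF U V p x := by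
  obtain ⟨t0, hc, hlt⟩ := h.branch_cur hx (hb_out hp hs)
  exact h.cur_in hc (by rw [dist_comm]; exact hlt)

theorem sd_iff_F {z V : ℂ} {i j : Fin k} : Sd U z V i j ↔ OutF U z V i ∧ InF U z V j := by
  unfold Sd OutF InF
  rw [← Filter.eventually_and]

/-- **One centre per wall.** -/
theorem Irr.wall_unique (h : Irr U T) {z w V : ℂ} {a b : Fin k} {τ : ℝ} (hτ : τ = 1 ∨ τ = -1)
    (hz : dist V z = 1) (hw : dist V w = 1) (hne : w ≠ z) (hne2 : w + z ≠ 2 * V)
    (ha : a ∈ T z) (hb' : b ∈ T z) (hs : Sd U V z a b)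
    (hxa : ∀ᶠ t : ℝ in 𝓝[>] 0, a ∈ T (hb w V τ t))
    (hxb : ∀ᶠ t : ℝ in 𝓝[>] 0, b ∈ T (hb w V τ t)) : False := by
  have hzV : dist z V = 1 := by rw [dist_comm]; exact hz
  obtain ⟨h1, h2⟩ := sd_iff_F.1 hs
  have hsg : sg w V z ≠ 0 := sg_ne hw hzV hne.symm (by rw [add_comm]; exact hne2)
  rcases lt_or_gt_of_ne (show τ * sg w V z ≠ 0 by
    rcases hτ with rfl | rfl <;> simpa using hsg) with h3 | h3
  · exact h.not_both_free hb' (h.br_out hxb hzV h3) h2
  · exact h.not_both_free ha h1 (h.br_in hxa hzV h3)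

/-- `z + cis (t₀ + τ t)` in terms of half branches -/
theorem hb_cis {z V : ℂ} (hV : dist V z = 1) : ∃ t0 : ℝ, ∀ τ t : ℝ,
    hb z V τ t = z + cis (t0 + τ * t) := by
  obtain ⟨t0, ht0⟩ : ∃ t0 : ℝ, V - z = cis t0 := by
    refine ⟨Complex.arg (V - z), ?_⟩
    have h1 : ‖V - z‖ = 1 := by rw [← dist_eq_norm]; exact hV
    have h2 := Complex.norm_mul_exp_arg_mul_I (V - z)
    rw [h1, Complex.ofReal_one, one_mul] at h2
    exact h2.symm
  refine ⟨t0, fun τ t => ?_⟩
  unfold hb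
  rw [ht0, cis_add394]

/-- **Sides at the centre, end of an exact half branch** of a two-pair point `z`. -/
theorem Irr.sd_end (h : Irr U T) {z V : ℂ} {a b : Fin k} {τ : ℝ} (hab : a ≠ b)
    (ha : a ∈ T z) (hb' : b ∈ T z) (hV : dist V z = 1) (hτ : τ = 1 ∨ τ = -1)
    (hx : ∀ᶠ t : ℝ in 𝓝[>] 0, T (hb z V τ t) = {a, b}) (hs : Sd U z V a b) : Sd U V z a b := by
  obtain ⟨t0, ht0⟩ := hb_cis hV
  have hs' : ∀ᶠ t : ℝ in 𝓝[>] 0, Sd U z (hb z V τ t) a b :=
    (tendsto_hb z V τ).eventually (Filter.Eventually.eventually_nhds hs)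
  obtain ⟨η, hη, hsub⟩ := mem_nhdsGT_iff_exists_Ioo_subset.1 (Filter.Eventually.and hx hs')
  have hη : (0 : ℝ) < η := hη
  set η' := min η 1 with hη'
  have h0 : 0 < η' := lt_min hη one_pos
  have hle : η' ≤ η := min_le_left _ _
  have h3 : η' < 3 := lt_of_le_of_lt (min_le_right _ _) (by norm_num)
  have hVt : z + cis t0 = V := by
    have h1 := ht0 1 0
    have h2 : hb z V 1 0 = V := by unfold hb cis; simp
    rw [← h2, h1]; simp
  have hkey : ∀ t : ℝ, 0 < t → t < η' → T (z + cis (t0 + τ * t)) = {a, b} ∧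
      Sd U z (z + cis (t0 + τ * t)) a b := by
    intro t h1 h2
    rw [← ht0]
    exact hsub ⟨h1, lt_of_lt_of_le h2 hle⟩
  have := h.mx.sd_center_end (z := z) (t0 := t0) (σ := τ) (η := η') h0 h3 (a := a) (b := b) hτ
    (fun t h1 h2 => by
      have h4 := (hkey t h1 h2).1
      exact ⟨h.sub _ (by rw [h4]; simp), h.sub _ (by rw [h4]; simp)⟩)
    (fun t h1 h2 => by
      obtain ⟨h4, h5⟩ := hkey t h1 h2
      refine h.sd_center (h.arc_of_eq hab ha hb' ?_ h4) h5
      rw [dist_eq_norm, add_sub_cancel_left, norm_cis])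
  rwa [hVt] at this

end general

end Vale.Agent.P032.Six
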